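import Vale.Agent.P150.Full.T.Cell.Solve

/-!
# P150 no traps, N4: a critical point followed over one step

If `x` is critical at `(θ, y)` and `x'` at `(θ - δ, y + η)`, then `x' - x` is the explicit second
order expression in `η`, up to a cubic remainder. The step `η` is arbitrary.
-/

open Finset Real Matrix
open Vale.Agent.P150.Fast
open Vale.Agent.P150.Beyond Vale.Agent.P150.Beyond.Stability

namespace Vale.Agent.P150.Full.T.Cell

variable {n : ℕ} {θ r γ δ : ℝ} {g : Edge n → ℝ} {m₀ x x' y η : Fin n → ℝ}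

/-- Minus the derivative of the gradient in the strength of the couplings. -/
noncomputable def bF (θ : ℝ) (g : Edge n → ℝ) (x : Fin n → ℝ) (i : Fin n) : ℝ :=
  2 * θ * (1 - qOf x) * x i - couple g x i

theorem nlF_shift (θ δ : ℝ) (g : Edge n → ℝ) (m₀ : Fin n → ℝ) (r : ℝ) (x : Fin n → ℝ) (i : Fin n) :
    nlF (θ - δ) g m₀ r x i = nlF θ g m₀ r x i - δ * bF θ g x i + δ ^ 2 * ((1 - qOf x) * x i) := by
  simp only [nlF, bF]; ring

theorem bF_le (hθ0 : 0 ≤ θ) (hθ1 : θ ≤ 1) (hop : OpBound g 3) (hx : ∀ i, |x i| ≤ 1) :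
    nrm (bF θ g x) ≤ 5 * √n := by
  have hq0 := qOf_nonneg x
  have hq1 := qOf_le_one hx
  refine (nrm_sub_le (fun i => 2 * θ * (1 - qOf x) * x i) (couple g x)).trans ?_
  have h1 := nrm_smul_le (a := x) (c := 2 * θ * (1 - qOf x)) (C := 2)
    (by rw [abs_of_nonneg (by nlinarith)]; nlinarith)
  have h2 := nrm_couple_le hop x
  have h3 := nrm_cube hx
  linarith

theorem qOf_lip (hn : 0 < n) (hx : ∀ i, |x i| ≤ 1) (hx' : ∀ i, |x' i| ≤ 1) :
    |qOf x' - qOf x| * √n ≤ 2 * nrm (fun i => x' i - x i) := by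
  have hn' : (0 : ℝ) < n := by exact_mod_cast hn
  have e : qOf x' - qOf x = (∑ i, (x' i + x i) * (x' i - x i)) / n := by
    rw [qOf, qOf, ← sub_div, ← Finset.sum_sub_distrib]
    exact congrArg (· / _) (Finset.sum_congr rfl fun i _ => by ring)
  have h := abs_sum_mul_le (fun i => x' i + x i) (fun i => x' i - x i)
  have h2 : nrm (fun i => x' i + x i) ≤ 2 * √n :=
    (nrm_add_le _ _).trans (by linarith [nrm_cube hx, nrm_cube hx'])
  rw [e, abs_div, abs_of_pos hn', div_mul_eq_mul_div, div_le_iff₀ hn']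
  refine (mul_le_mul_of_nonneg_right (h.trans (mul_le_mul_of_nonneg_right h2 (nrm_nonneg _)))
    (Real.sqrt_nonneg _)).trans (le_of_eq ?_)
  linear_combination (2 * nrm fun i => x' i - x i) * Real.mul_self_sqrt hn'.le

theorem bF_lip (hn : 0 < n) (hθ0 : 0 ≤ θ) (hθ1 : θ ≤ 1) (hop : OpBound g 3) (hx : ∀ i, |x i| ≤ 1)
    (hx' : ∀ i, |x' i| ≤ 1) :
    nrm (fun i => bF θ g x' i - bF θ g x i) ≤ 9 * nrm (fun i => x' i - x i) := by
  set u : Fin n → ℝ := fun i => x' i - x i with hu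
  have e : (fun i => bF θ g x' i - bF θ g x i) = fun i => (2 * θ * (1 - qOf x) * u i
      + 2 * θ * (qOf x - qOf x') * x' i) - couple g u i := funext fun i => by
    have : couple g u i = couple g x' i - couple g x i := by
      simp only [couple, hu, mul_sub, Finset.sum_sub_distrib]
    rw [this]; simp only [bF, hu]; ring
  rw [e]
  refine (nrm_sub_le _ _).trans ((add_le_add ((nrm_add_le _ _).trans (add_le_add
    (nrm_smul_le (C := 2) ?_) (nrm_smul_le (C := 2 * |qOf x' - qOf x|) ?_))) (nrm_couple_le hop u)).trans ?_)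
  · have hq0 := qOf_nonneg x
    have hq1 := qOf_le_one hx
    rw [abs_of_nonneg (by nlinarith)]; nlinarith
  · rw [abs_mul, abs_of_nonneg (by linarith : (0 : ℝ) ≤ 2 * θ), abs_sub_comm]
    exact mul_le_mul_of_nonneg_right (by linarith) (abs_nonneg _)
  · have h1 := mul_le_mul_of_nonneg_left (nrm_cube hx') (abs_nonneg (qOf x' - qOf x))
    have h2 := qOf_lip hn hx hx'
    linarith

theorem nrm_mul_le (a b : Fin n → ℝ) : nrm (fun i => a i * b i) ≤ nrm a * nrm b := by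
  refine nrm_le_of_sq (mul_nonneg (nrm_nonneg a) (nrm_nonneg b)) ?_
  rw [mul_pow, nrm_sq b, Finset.mul_sum]
  refine Finset.sum_le_sum fun i _ => ?_
  rw [mul_pow, ← sq_abs (a i)]
  exact mul_le_mul_of_nonneg_right (pow_le_pow_left₀ (abs_nonneg _) (abs_le_nrm a i) 2) (sq_nonneg _)

/-- The expansion of `x' - x`. -/
noncomputable def stepMain (θ : ℝ) (g : Edge n → ℝ) (m₀ : Fin n → ℝ) (r δ : ℝ) (x η : Fin n → ℝ) :
    Fin n → ℝ :=
  sol θ g m₀ r x fun i => η i + δ * bF θ g x i - x i * (sol θ g m₀ r x η i / (1 - x i ^ 2)) ^ 2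
    - nl2 θ m₀ r x (sol θ g m₀ r x η) (sol θ g m₀ r x η) i / 2

/-- The size of a step. -/
noncomputable def stepSize (δ : ℝ) (η : Fin n → ℝ) : ℝ := nrm η + δ * √n

/-- The constant of the first order bounds. -/
noncomputable def stepC (r γ : ℝ) : ℝ := 7 * solC r γ * (1 + 1 / γ)

theorem nl2_diff (θ : ℝ) (m₀ : Fin n → ℝ) (r : ℝ) (x a b : Fin n → ℝ) (i : Fin n) :
    nl2 θ m₀ r x a a i - nl2 θ m₀ r x b b i =
      nl2 θ m₀ r x (fun j => a j - b j) (fun j => a j + b j) i := by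
  have e1 : ∑ j, (a j - b j) * (a j + b j) = (∑ j, a j * a j) - ∑ j, b j * b j := by
    rw [← Finset.sum_sub_distrib]; exact Finset.sum_congr rfl fun j _ => by ring
  have e2 : ∀ c : Fin n → ℝ, ∑ j, c j * (a j - b j) = (∑ j, c j * a j) - ∑ j, c j * b j := fun c => by
    simp only [mul_sub, Finset.sum_sub_distrib]
  have e3 : ∀ c : Fin n → ℝ, ∑ j, c j * (a j + b j) = (∑ j, c j * a j) + ∑ j, c j * b j := fun c => by
    simp only [mul_add, Finset.sum_add_distrib]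
  simp only [nl2, e1, e2, e3]
  ring

/-- The first order bounds on the step in `x` and in `h = artanh x`. -/
theorem step_bounds (P : PosPoint θ γ r g m₀ x) (hx' : ∀ i, |x' i| < 1)
    (e : ∀ i, Stability.slope (x i) + nlF θ g m₀ r x i = y i)
    (e' : ∀ i, Stability.slope (x' i) + nlF (θ - δ) g m₀ r x' i = y i + η i)
    (hmono : γ * ∑ i, (x' i - x i) ^ 2 ≤ ∑ i, ((Stability.slope (x' i) + nlF θ g m₀ r x' i) -
      (Stability.slope (x i) + nlF θ g m₀ r x i)) * (x' i - x i))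
    (hδ0 : 0 ≤ δ) (hδ1 : δ ≤ 1) :
    nrm (fun i => x' i - x i) ≤ stepC r γ * stepSize δ η ∧
      nrm (fun i => Stability.slope (x' i) - Stability.slope (x i)) ≤ stepC r γ * stepSize δ η := by
  set u : Fin n → ℝ := fun i => x' i - x i with hu
  set w : Fin n → ℝ := fun i => η i + δ * bF θ g x' i - δ ^ 2 * ((1 - qOf x') * x' i) with hw
  have ew : ∀ i, (Stability.slope (x' i) + nlF θ g m₀ r x' i) -
      (Stability.slope (x i) + nlF θ g m₀ r x i) = w i := fun i => by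
    have h := e' i
    rw [nlF_shift] at h
    simp only [hw]
    linarith [e i]
  have hξ0 : 0 ≤ stepSize δ η := add_nonneg (nrm_nonneg η) (by positivity)
  have hwle : nrm w ≤ 6 * stepSize δ η := by
    refine (nrm_sub_le (fun i => η i + δ * bF θ g x' i) _).trans ((add_le_add ((nrm_add_le η _).trans
      (add_le_add le_rfl (nrm_smul_le (C := δ) (abs_of_nonneg hδ0).le)))
        (nrm_smul_le (a := fun i => (1 - qOf x') * x' i) (C := δ) (by
          rw [abs_of_nonneg (sq_nonneg δ)]; nlinarith))).trans ?_)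
    have hq0 := qOf_nonneg x'
    have hq1 := qOf_le_one fun i => (hx' i).le
    have h1 := (nrm_smul_le (a := x') (c := 1 - qOf x') (C := 1)
      (by rw [abs_le]; constructor <;> linarith)).trans
      (mul_le_mul_of_nonneg_left (nrm_cube fun i => (hx' i).le) zero_le_one)
    have h2 := bF_le (g := g) P.θnonneg P.θle P.op fun i => (hx' i).le
    rw [stepSize]
    nlinarith [mul_le_mul_of_nonneg_left h1 hδ0, mul_le_mul_of_nonneg_left h2 hδ0, nrm_nonneg η,
      Real.sqrt_nonneg (n : ℝ)]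
  have hu1 : γ * nrm u ≤ nrm w := by
    simp only [ew] at hmono
    rw [← nrm_sq] at hmono
    have h2 := hmono.trans ((le_abs_self _).trans (abs_sum_mul_le w u))
    rcases (nrm_nonneg u).eq_or_lt with h0 | h0
    · rw [← h0, mul_zero]; exact nrm_nonneg w
    · exact le_of_mul_le_mul_right (by linarith [show γ * nrm u ^ 2 = γ * nrm u * nrm u by ring]) h0
  have hu2 : nrm u ≤ 6 / γ * stepSize δ η := by
    rw [div_mul_eq_mul_div, le_div_iff₀ P.γpos, mul_comm]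
    exact hu1.trans hwle
  have hγ := P.γpos
  have hL := lipC_pos r
  have hC : 6 / γ ≤ stepC r γ := by
    have := solC_one_le (r := r) P.γpos
    rw [stepC]
    nlinarith [mul_le_mul_of_nonneg_right this (by positivity : 0 ≤ 7 * (1 + 1 / γ)),
      (by positivity : 0 ≤ 1 / γ), show 6 / γ = 6 * (1 / γ) by ring]
  refine ⟨hu2.trans (mul_le_mul_of_nonneg_right hC hξ0), ?_⟩
  have hv : ∀ i, Stability.slope (x' i) - Stability.slope (x i) =
      w i - (nlF θ g m₀ r x' i - nlF θ g m₀ r x i) := fun i => by linarith [ew i]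
  have hlip := nlF_lip (θ := θ) (r := r) (g := g) (x := x) (u := u) P.pos P.θnonneg P.θle P.op P.abs_le
    (fun i => by simpa [hu] using (hx' i).le) P.centre
  simp only [hu, add_sub_cancel] at hlip
  rw [show (fun i => Stability.slope (x' i) - Stability.slope (x i)) =
    fun i => w i - (nlF θ g m₀ r x' i - nlF θ g m₀ r x i) from funext hv]
  refine (nrm_sub_le _ _).trans ((add_le_add hwle (hlip.trans
    (mul_le_mul_of_nonneg_left hu2 hL.le))).trans ?_)
  rw [stepC, solC]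
  have e2 : lipC r * (6 / γ * stepSize δ η) = 6 * (lipC r / γ) * stepSize δ η := by ring
  rw [e2]
  nlinarith [div_nonneg hL.le hγ.le, mul_nonneg (div_nonneg hL.le hγ.le) hξ0,
    mul_nonneg (mul_nonneg (div_nonneg hL.le hγ.le) (by positivity : 0 ≤ 1 / γ)) hξ0,
    mul_nonneg (by positivity : 0 ≤ 1 / γ) hξ0]

/-- The remainder of `tanh` to second order, bounded by a cube and by a square. -/
theorem tanh_rem (a b : ℝ) (ha : |a| < 1) (hb : |b| < 1) :
    |b - a - (1 - a ^ 2) * (Stability.slope b - Stability.slope a)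
      + a * (1 - a ^ 2) * (Stability.slope b - Stability.slope a) ^ 2| ≤
      6 * |Stability.slope b - Stability.slope a| ^ 3 ∧
    |b - a - (1 - a ^ 2) * (Stability.slope b - Stability.slope a)
      + a * (1 - a ^ 2) * (Stability.slope b - Stability.slope a) ^ 2| ≤
      6 * (Stability.slope b - Stability.slope a) ^ 2 := by
  set v := Stability.slope b - Stability.slope a with hv
  have h := tanh_taylor (Stability.slope a) v
  rw [show Stability.slope a + v = Stability.slope b by rw [hv]; ring, tanh_slope ha, tanh_slope hb] at h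
  refine ⟨h, ?_⟩
  rcases le_total |v| 1 with h1 | h1
  · refine h.trans ?_
    rw [← sq_abs v, pow_succ]
    nlinarith [sq_nonneg |v|]
  · obtain ⟨a1, a2⟩ := abs_lt.1 ha
    obtain ⟨b1, b2⟩ := abs_lt.1 hb
    have hv2 : 1 ≤ v ^ 2 := by rw [← sq_abs]; nlinarith
    have hD : 0 ≤ 1 - a ^ 2 ∧ 1 - a ^ 2 ≤ 1 := ⟨by nlinarith, by nlinarith⟩
    have hv3 : |(1 - a ^ 2) * v| ≤ v ^ 2 := by
      rw [abs_mul, abs_of_nonneg hD.1, ← sq_abs v]
      nlinarith [mul_le_of_le_one_left (abs_nonneg v) hD.2]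
    have hv4 : |a * (1 - a ^ 2) * v ^ 2| ≤ v ^ 2 := by
      rw [abs_mul, abs_mul, abs_of_nonneg hD.1, abs_of_nonneg (sq_nonneg v)]
      exact mul_le_of_le_one_left (sq_nonneg v) (mul_le_one₀ ha.le hD.1 hD.2)
    rw [abs_le] at hv3 hv4 ⊢
    constructor <;> linarith

/-- The constant of the expansion. -/
noncomputable def expandC (r γ : ℝ) : ℝ :=
  200 * (1 + lipC r) ^ 2 * solC r γ ^ 2 * (1 + 1 / γ) ^ 2 * stepC r γ ^ 3

theorem nrm_sub5 (a b c d e : Fin n → ℝ) :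
    nrm (fun i => a i - b i - c i - d i - e i) ≤ nrm a + nrm b + nrm c + nrm d + nrm e := by
  have h1 := nrm_sub_le (fun i => a i - b i - c i - d i) e
  have h2 := nrm_sub_le (fun i => a i - b i - c i) d
  have h3 := nrm_sub_le (fun i => a i - b i) c
  linarith [nrm_sub_le a b]

/-- The powers collected. -/
theorem expand_arith {γ L S C ξ δ N : ℝ} (hγ : 0 < γ) (hL0 : 0 ≤ L) (hS1 : 1 ≤ S) (hC : 1 ≤ C)
    (hξ : 0 ≤ ξ) (hδ : 0 ≤ δ) (hN : 1 ≤ N) :
    (10 * δ * (C * ξ) + (S * (6 * δ * N + 10 * (1 + L) * N * (C * ξ) ^ 2) + (C * ξ) ^ 2) * (2 * (C * ξ))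
        + L * ((6 * δ * N + 10 * (1 + L) * N * (C * ξ) ^ 2) / γ + 6 * (C * ξ) ^ 2) * (2 * (C * ξ))
        + 7 * L * (C * ξ) ^ 3 * √N) / γ + 6 * (C * ξ) ^ 3 ≤
      200 * (1 + L) ^ 2 * S ^ 2 * (1 + 1 / γ) ^ 2 * C ^ 3 * N * (ξ ^ 3 + δ * ξ) := by
  set P := (1 + L) ^ 2 * S ^ 2 * (1 + 1 / γ) ^ 2 * C ^ 3 * N * ξ ^ 3 with hP
  set Q := (1 + L) ^ 2 * S ^ 2 * (1 + 1 / γ) ^ 2 * C ^ 3 * N * (δ * ξ) with hQ
  set G := 1 / γ with hG
  have hG0 : 0 ≤ G := by positivity
  have hsN : √N ≤ N := Real.sqrt_le_self_iff.2 (Or.inr hN)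
  have c1 : 1 ≤ (1 + L) ^ 2 := one_le_pow₀ (by linarith)
  have c2 : L ≤ (1 + L) ^ 2 := by nlinarith
  have c3 : L ^ 2 ≤ (1 + L) ^ 2 := by nlinarith
  have e1 : 1 ≤ S ^ 2 := one_le_pow₀ hS1
  have e2 : S ≤ S ^ 2 := le_self_pow₀ hS1 two_ne_zero
  have g0 : 1 ≤ (1 + G) ^ 2 := one_le_pow₀ (by linarith)
  have g1 : G ≤ (1 + G) ^ 2 := by nlinarith
  have g2 : G ^ 2 ≤ (1 + G) ^ 2 := pow_le_pow_left₀ hG0 (by linarith) 2
  have hC3 : C ≤ C ^ 3 := le_self_pow₀ hC three_ne_zero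
  have b {p q s k : ℝ} (hp : p ≤ (1 + L) ^ 2) (hq : q ≤ S ^ 2) (hs : s ≤ (1 + G) ^ 2) (hk : k ≤ C ^ 3)
      (hp0 : 0 ≤ p) (hq0 : 0 ≤ q) (hs0 : 0 ≤ s) (hk0 : 0 ≤ k) {M M' : ℝ} (hM : M ≤ M') (hM0 : 0 ≤ M)
      {z : ℝ} (hz : 0 ≤ z) : p * q * s * k * M * z ≤ (1 + L) ^ 2 * S ^ 2 * (1 + G) ^ 2 * C ^ 3 * M' * z := by
    gcongr
  have hN0 : (0 : ℝ) ≤ N := by linarith
  have hd : 0 ≤ δ * ξ := mul_nonneg hδ hξ
  have hc : 0 ≤ ξ ^ 3 := pow_nonneg hξ 3
  have hC0 : 0 ≤ C := by linarith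
  have hS0 : 0 ≤ S := by linarith
  have hC30 : 0 ≤ C ^ 3 := by positivity
  have t1 := b c1 e1 g1 hC3 zero_le_one zero_le_one hG0 hC0 hN zero_le_one hd
  have t2 := b c1 e1 g1 le_rfl zero_le_one zero_le_one hG0 hC30 hN zero_le_one hc
  have t3 := b c1 e2 g1 hC3 zero_le_one hS0 hG0 hC0 le_rfl hN0 hd
  have t4 := b c1 e2 g1 le_rfl zero_le_one hS0 hG0 hC30 le_rfl hN0 hc
  have t5 := b c2 e2 g1 le_rfl hL0 hS0 hG0 hC30 le_rfl hN0 hc
  have t6 := b c2 e1 g2 hC3 hL0 zero_le_one (sq_nonneg G) hC0 le_rfl hN0 hd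
  have t7 := b c2 e1 g2 le_rfl hL0 zero_le_one (sq_nonneg G) hC30 le_rfl hN0 hc
  have t8 := b c3 e1 g2 le_rfl (sq_nonneg L) zero_le_one (sq_nonneg G) hC30 le_rfl hN0 hc
  have t9 := b c2 e1 g1 le_rfl hL0 zero_le_one hG0 hC30 hN zero_le_one hc
  have t10 := b c2 e1 g1 le_rfl hL0 zero_le_one hG0 hC30 hsN (Real.sqrt_nonneg N) hc
  have t11 := b c1 e1 g0 le_rfl zero_le_one zero_le_one zero_le_one hC30 hN zero_le_one hc
  rw [← hP] at t2 t4 t5 t7 t8 t9 t10 t11
  rw [← hQ] at t1 t3 t6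
  have hP0 : 0 ≤ P := by positivity
  have hQ0 : 0 ≤ Q := by positivity
  calc _ = 10 * (1 * 1 * G * C * 1 * (δ * ξ)) + 2 * (1 * 1 * G * C ^ 3 * 1 * ξ ^ 3)
        + 12 * (1 * S * G * C * N * (δ * ξ)) + 20 * (1 * S * G * C ^ 3 * N * ξ ^ 3)
        + 20 * (L * S * G * C ^ 3 * N * ξ ^ 3) + 12 * (L * 1 * G ^ 2 * C * N * (δ * ξ))
        + 20 * (L * 1 * G ^ 2 * C ^ 3 * N * ξ ^ 3) + 20 * (L ^ 2 * 1 * G ^ 2 * C ^ 3 * N * ξ ^ 3)
        + 12 * (L * 1 * G * C ^ 3 * 1 * ξ ^ 3) + 7 * (L * 1 * G * C ^ 3 * √N * ξ ^ 3)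
        + 6 * (1 * 1 * 1 * C ^ 3 * 1 * ξ ^ 3) := by rw [hG]; field_simp; ring
    _ ≤ 10 * Q + 2 * P + 12 * Q + 20 * P + 20 * P + 12 * Q + 20 * P + 20 * P + 12 * P + 7 * P + 6 * P := by
        gcongr
    _ ≤ 200 * (Q + P) := by linarith
    _ = _ := by rw [hP, hQ]; ring

/-- The remainder of `tanh`, in length. -/
theorem tanh_rem_nrm (hx : ∀ i, |x i| < 1) (hx' : ∀ i, |x' i| < 1) {X : ℝ}
    (hv : nrm (fun i => Stability.slope (x' i) - Stability.slope (x i)) ≤ X) :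
    nrm (fun i => (x' i - x i) - (1 - x i ^ 2) * (Stability.slope (x' i) - Stability.slope (x i))
        + x i * (1 - x i ^ 2) * (Stability.slope (x' i) - Stability.slope (x i)) ^ 2) ≤ 6 * X ^ 2 ∧
      nrm (fun i => (x' i - x i) - (1 - x i ^ 2) * (Stability.slope (x' i) - Stability.slope (x i))
        + x i * (1 - x i ^ 2) * (Stability.slope (x' i) - Stability.slope (x i)) ^ 2) ≤ 6 * X ^ 3 := by
  set v : Fin n → ℝ := fun i => Stability.slope (x' i) - Stability.slope (x i)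
  have hX : 0 ≤ X := (nrm_nonneg v).trans hv
  have hvv : nrm (fun i => v i * v i) ≤ X ^ 2 :=
    (nrm_mul_le v v).trans (by rw [sq]; exact mul_le_mul hv hv (nrm_nonneg _) hX)
  refine ⟨?_, ?_⟩
  · refine ((nrm_mono (b := fun i => 6 * (v i * v i)) fun i => ?_).trans
      (nrm_smul_le (C := 6) (by norm_num))).trans (mul_le_mul_of_nonneg_left hvv (by norm_num))
    exact ((tanh_rem (x i) (x' i) (hx i) (hx' i)).2.trans (le_of_eq (by rw [sq]))).trans (le_abs_self _)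
  · refine ((nrm_mono (b := fun i => 6 * (v i * (v i * v i))) fun i => ?_).trans
      (nrm_smul_le (C := 6) (by norm_num))).trans (mul_le_mul_of_nonneg_left ?_ (by norm_num))
    · refine ((tanh_rem (x i) (x' i) (hx i) (hx' i)).1).trans (le_of_eq ?_)
      rw [abs_mul, abs_mul, abs_mul, abs_of_nonneg (by norm_num : (0 : ℝ) ≤ 6)]; ring
    · refine (nrm_mul_le v _).trans ((mul_le_mul hv hvv (nrm_nonneg _) hX).trans (le_of_eq ?_))
      ring

/-- The Taylor remainder of `nlF`, in length. -/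
theorem nlF_rem (P : PosPoint θ γ r g m₀ x) (hx' : ∀ i, |x' i| ≤ 1) {X : ℝ}
    (hu : nrm (fun i => x' i - x i) ≤ X) :
    nrm (fun i => nlF θ g m₀ r x' i - nlF θ g m₀ r x i - nl1 θ g m₀ r x (fun j => x' j - x j) i
      - nl2 θ m₀ r x (fun j => x' j - x j) (fun j => x' j - x j) i / 2) ≤ lipC r * X ^ 3 * √n ∧
    nrm (fun i => nlF θ g m₀ r x' i - nlF θ g m₀ r x i - nl1 θ g m₀ r x (fun j => x' j - x j) i
      - nl2 θ m₀ r x (fun j => x' j - x j) (fun j => x' j - x j) i / 2) ≤ lipC r * X ^ 2 * (2 * n) := by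
  have hX : 0 ≤ X := (nrm_nonneg _).trans hu
  have hL := lipC_pos r
  have h := nlF_taylor (θ := θ) (r := r) (g := g) (x := x) (u := fun j => x' j - x j) P.pos P.θnonneg P.θle
    P.abs_le (fun i => by simpa using hx' i) P.centre
  simp only [add_sub_cancel] at h
  have hu3 := pow_le_pow_left₀ (nrm_nonneg _) hu 3
  refine ⟨h.trans (mul_le_mul_of_nonneg_right (mul_le_mul_of_nonneg_left hu3 hL.le) (Real.sqrt_nonneg _)),
    h.trans ?_⟩
  set U := nrm fun j => x' j - x j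
  have hU : 0 ≤ U := nrm_nonneg _
  have h2n : U ≤ 2 * √n := (nrm_sub_le x' x).trans (by linarith [nrm_cube P.abs_le, nrm_cube hx'])
  calc lipC r * U ^ 3 * √n = lipC r * U ^ 2 * (U * √n) := by ring
    _ ≤ lipC r * X ^ 2 * (2 * n) := by
        refine mul_le_mul (mul_le_mul_of_nonneg_left (pow_le_pow_left₀ hU hu 2) hL.le)
          ((mul_le_mul_of_nonneg_right h2n (Real.sqrt_nonneg _)).trans_eq ?_)
          (mul_nonneg hU (Real.sqrt_nonneg _)) (by positivity)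
        rw [mul_assoc, Real.mul_self_sqrt n.cast_nonneg]

theorem step_shift_le (P : PosPoint θ γ r g m₀ x) (hx' : ∀ i, |x' i| ≤ 1) (hδ0 : 0 ≤ δ) (hδ1 : δ ≤ 1) :
    nrm (fun i => δ * bF θ g x' i - δ ^ 2 * ((1 - qOf x') * x' i)) ≤ 6 * δ * n ∧
      nrm (fun i => δ * (bF θ g x' i - bF θ g x i) - δ ^ 2 * ((1 - qOf x') * x' i)) ≤
        9 * δ * nrm (fun i => x' i - x i) + δ * (δ * √n) := by
  have hn1 : (1 : ℝ) ≤ n := by exact_mod_cast P.pos
  have hsn : √(n : ℝ) ≤ n := Real.sqrt_le_self_iff.2 (Or.inr hn1)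
  have hq0 := qOf_nonneg x'
  have hq1 := qOf_le_one hx'
  have h1 : nrm (fun i => δ ^ 2 * ((1 - qOf x') * x' i)) ≤ δ * (δ * √n) := by
    refine (nrm_smul_le (a := fun i => (1 - qOf x') * x' i) (C := δ ^ 2)
      (abs_of_nonneg (sq_nonneg δ)).le).trans ?_
    have := (nrm_smul_le (a := x') (c := 1 - qOf x') (C := 1)
      (by rw [abs_le]; constructor <;> linarith)).trans
      (mul_le_mul_of_nonneg_left (nrm_cube hx') zero_le_one)
    exact (mul_le_mul_of_nonneg_left this (sq_nonneg δ)).trans_eq (by ring)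
  refine ⟨(nrm_sub_le _ _).trans ((add_le_add (nrm_smul_le (a := bF θ g x') (C := δ)
      (abs_of_nonneg hδ0).le) h1).trans ?_),
    (nrm_sub_le _ _).trans (add_le_add ((nrm_smul_le (a := fun i => bF θ g x' i - bF θ g x i) (C := δ)
      (abs_of_nonneg hδ0).le).trans ?_) h1)⟩
  · have h2 := bF_le (g := g) P.θnonneg P.θle P.op hx'
    nlinarith [mul_le_mul_of_nonneg_left h2 hδ0, mul_le_mul_of_nonneg_left hsn hδ0,
      mul_le_mul_of_nonneg_left hδ1 (mul_nonneg hδ0 (Real.sqrt_nonneg (n : ℝ)))]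
  · exact (mul_le_mul_of_nonneg_left (bF_lip (g := g) P.pos P.θnonneg P.θle P.op P.abs_le hx') hδ0).trans_eq
      (by ring)

theorem rho_arith {L N X δ : ℝ} (hL : 0 ≤ L) (hN : 1 ≤ N) :
    6 * δ * N + X ^ 2 + L * X ^ 2 + L * X ^ 2 * (2 * N) + L * (6 * X ^ 2) ≤
      6 * δ * N + 10 * (1 + L) * N * X ^ 2 := by
  nlinarith [mul_nonneg (mul_nonneg hL (sq_nonneg X)) (sub_nonneg.2 hN),
    mul_nonneg (sq_nonneg X) (sub_nonneg.2 hN), mul_nonneg hL (sq_nonneg X), sq_nonneg X]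

theorem shift_arith {C ξ δ U N : ℝ} (hC : 1 ≤ C) (hU : U ≤ C * ξ) (hδ : 0 ≤ δ) (hξ : 0 ≤ ξ) (hN : δ * N ≤ ξ) :
    9 * δ * U + δ * (δ * N) ≤ 10 * δ * (C * ξ) := by
  nlinarith [mul_le_mul_of_nonneg_left hU hδ, mul_le_mul_of_nonneg_left hN hδ,
    mul_le_mul_of_nonneg_left (le_mul_of_one_le_left hξ hC) hδ]

theorem sum_arith {L X s A B D : ℝ} (hL : 0 ≤ L) (hX : 0 ≤ X) (hs : 1 ≤ s) :
    A + B + D + L * X ^ 3 * s + L * (6 * X ^ 3) ≤ A + B + D + 7 * L * X ^ 3 * s := by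
  nlinarith [mul_le_mul_of_nonneg_left hs (mul_nonneg hL (pow_nonneg hX 3))]

theorem stepC_facts (hγ : 0 < γ) : 7 ≤ stepC r γ ∧ solC r γ ≤ stepC r γ := by
  have h := solC_one_le (r := r) hγ
  have : 0 ≤ solC r γ * (1 / γ) := mul_nonneg (zero_le_one.trans h) (by positivity)
  rw [stepC]
  constructor <;> nlinarith

/-- **One step of the critical point.** -/
theorem expand (P : PosPoint θ γ r g m₀ x) (hx' : ∀ i, |x' i| < 1)
    (e : ∀ i, Stability.slope (x i) + nlF θ g m₀ r x i = y i)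
    (e' : ∀ i, Stability.slope (x' i) + nlF (θ - δ) g m₀ r x' i = y i + η i)
    (hmono : γ * ∑ i, (x' i - x i) ^ 2 ≤ ∑ i, ((Stability.slope (x' i) + nlF θ g m₀ r x' i) -
      (Stability.slope (x i) + nlF θ g m₀ r x i)) * (x' i - x i))
    (hδ0 : 0 ≤ δ) (hδ1 : δ ≤ 1) :
    nrm (fun i => x' i - x i - stepMain θ g m₀ r δ x η i) ≤
      expandC r γ * n * (stepSize δ η ^ 3 + δ * stepSize δ η) := by
  obtain ⟨hu, hv⟩ := step_bounds P hx' e e' hmono hδ0 hδ1
  set ξ := stepSize δ η with hξ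
  set C := stepC r γ with hC
  set L := lipC r with hL
  set S := solC r γ with hS
  have hS1 : 1 ≤ S := solC_one_le P.γpos
  have hL0 : 0 < L := lipC_pos r
  have hγ := P.γpos
  have hn1 : (1 : ℝ) ≤ n := by exact_mod_cast P.pos
  have hs1 : 1 ≤ √(n : ℝ) := Real.one_le_sqrt.2 hn1
  have hsn : √(n : ℝ) ≤ n := Real.sqrt_le_self_iff.2 (Or.inr hn1)
  have hig : 0 ≤ 1 / γ := by positivity
  obtain ⟨hC1, hSC⟩ : 7 ≤ C ∧ S ≤ C := stepC_facts hγ
  have hξ0 : 0 ≤ ξ := add_nonneg (nrm_nonneg η) (by positivity)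
  have hηξ : nrm η ≤ ξ := le_add_of_nonneg_right (by positivity)
  have hδξ : δ * √n ≤ ξ := le_add_of_nonneg_left (nrm_nonneg η)
  have hxa := P.abs_le
  have hm := P.centre
  set u : Fin n → ℝ := fun i => x' i - x i with hud
  set v : Fin n → ℝ := fun i => Stability.slope (x' i) - Stability.slope (x i) with hvd
  set E : Fin n → ℝ := fun i => u i - (1 - x i ^ 2) * v i + x i * (1 - x i ^ 2) * v i ^ 2 with hE
  set p : Fin n → ℝ := fun i => u i - E i with hp
  set a := sol θ g m₀ r x η with ha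
  set v₁ : Fin n → ℝ := fun i => a i / (1 - x i ^ 2) with hv₁
  -- the exact equation
  set R : Fin n → ℝ := fun i => nlF θ g m₀ r x' i - nlF θ g m₀ r x i - nl1 θ g m₀ r x u i
    - nl2 θ m₀ r x u u i / 2 with hR
  set w : Fin n → ℝ := fun i => δ * bF θ g x' i - δ ^ 2 * ((1 - qOf x') * x' i) with hw
  set v2 : Fin n → ℝ := fun i => x i * v i ^ 2 with hv2
  have hlin : ∀ i, nl1 θ g m₀ r x p i = nl1 θ g m₀ r x u i - nl1 θ g m₀ r x E i := fun i => by
    simp only [hp, nl1, couple, mul_sub, Finset.sum_sub_distrib]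
    ring
  have hH : hessCMat θ g m₀ r x *ᵥ p = fun i => η i + (w i - v2 i - nl2 θ m₀ r x u u i / 2
      - R i - nl1 θ g m₀ r x E i) := funext fun i => by
    have h := e' i
    rw [nlF_shift] at h
    rw [hessCMat_mulVec, hlin, show p i = (1 - x i ^ 2) * (v i - x i * v i ^ 2) by simp only [hp, hE]; ring,
      mul_div_cancel_left₀ _ (P.dpos i).ne']
    simp only [hw, hR, hv2, hvd]
    linarith [e i]
  -- sizes
  have hu' : nrm u ≤ C * ξ := hu
  have hv' : nrm v ≤ C * ξ := hv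
  have hv1 : nrm v₁ ≤ C * ξ :=
    (sol_bound_div P η).trans (mul_le_mul hSC hηξ (nrm_nonneg η) (by linarith))
  have hvv : nrm (fun i => v i ^ 2) ≤ (C * ξ) ^ 2 := by
    simp only [sq]
    exact (nrm_mul_le v v).trans (mul_le_mul hv' hv' (nrm_nonneg _) (by positivity))
  obtain ⟨hEsq, hEcube⟩ : nrm E ≤ 6 * (C * ξ) ^ 2 ∧ nrm E ≤ 6 * (C * ξ) ^ 3 :=
    tanh_rem_nrm P.mem hx' hv'
  obtain ⟨hu3, hu3'⟩ : nrm R ≤ L * (C * ξ) ^ 3 * √n ∧ nrm R ≤ L * (C * ξ) ^ 2 * (2 * n) :=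
    nlF_rem P (fun i => (hx' i).le) hu'
  have hnl2 : nrm (fun i => nl2 θ m₀ r x u u i / 2) ≤ L * (C * ξ) ^ 2 := by
    refine (nrm_mono (b := nl2 θ m₀ r x u u) fun i => ?_).trans ?_
    · rw [abs_div, abs_two]; linarith [abs_nonneg (nl2 θ m₀ r x u u i)]
    · exact (nl2_le P.pos P.θnonneg P.θle hxa hm u u).trans (by
        rw [← hL, mul_assoc, sq]
        exact mul_le_mul_of_nonneg_left (mul_le_mul hu' hu' (nrm_nonneg _) (by positivity)) hL0.le)
  have hv2le : nrm v2 ≤ (C * ξ) ^ 2 := (nrm_mono (b := fun i => v i ^ 2) fun i => by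
    rw [hv2, abs_mul]; exact mul_le_of_le_one_left (abs_nonneg _) (hxa i)).trans hvv
  obtain ⟨hwle, hshift⟩ := step_shift_le P (x' := x') (fun i => (hx' i).le) hδ0 hδ1
  have hK : (0 : ℝ) ≤ (C * ξ) ^ 2 := sq_nonneg _
  -- `p` is `F η` to first order
  set rho : Fin n → ℝ := fun i => w i - v2 i - nl2 θ m₀ r x u u i / 2 - R i - nl1 θ g m₀ r x E i
    with hrho
  have hrho_le : nrm rho ≤ 6 * δ * n + 10 * (1 + L) * n * (C * ξ) ^ 2 :=
    (nrm_sub5 w v2 (fun i => nl2 θ m₀ r x u u i / 2) R (nl1 θ g m₀ r x E)).trans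
      ((add_le_add (add_le_add (add_le_add (add_le_add hwle hv2le) hnl2) hu3')
        ((nl1_le P.pos P.θnonneg P.θle P.op hxa hm E).trans (mul_le_mul_of_nonneg_left hEsq hL0.le))).trans
        (rho_arith hL0.le hn1))
  have hpa : p - a = sol θ g m₀ r x rho := by
    have h : p = sol θ g m₀ r x (η + rho) := (sol_eq P hH).symm
    rw [h, sol_add, ← ha, add_sub_cancel_left]
  set K := 6 * δ * n + 10 * (1 + L) * n * (C * ξ) ^ 2 with hKdef
  have hK0 : 0 ≤ K := by positivity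
  have hvd1 : nrm (fun i => v i - v₁ i) ≤ S * K + (C * ξ) ^ 2 := by
    have e1 : (fun i => v i - v₁ i) = fun i => sol θ g m₀ r x rho i / (1 - x i ^ 2) + v2 i :=
      funext fun i => by
        have hd := (P.dpos i).ne'
        rw [← hpa, Pi.sub_apply, sub_div, show p i / (1 - x i ^ 2) = v i - v2 i by
          rw [show p i = (1 - x i ^ 2) * (v i - x i * v i ^ 2) by simp only [hp, hE]; ring,
            mul_div_cancel_left₀ _ hd]]
        simp only [hv₁]; ring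
    rw [e1]
    exact (nrm_add_le _ _).trans (add_le_add ((sol_bound_div P rho).trans
      (mul_le_mul_of_nonneg_left hrho_le (by linarith))) hv2le)
  have hua : nrm (fun i => u i - a i) ≤ K / γ + 6 * (C * ξ) ^ 2 := by
    have e1 : (fun i => u i - a i) = fun i => sol θ g m₀ r x rho i + E i := funext fun i => by
      rw [← hpa, Pi.sub_apply]; simp only [hp]; ring
    rw [e1]
    refine (nrm_add_le _ _).trans (add_le_add ?_ hEsq)
    rw [le_div_iff₀ hγ, mul_comm]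
    exact (sol_bound P rho).trans hrho_le
  -- the remainder
  set Q : Fin n → ℝ := fun i => (δ * (bF θ g x' i - bF θ g x i) - δ ^ 2 * ((1 - qOf x') * x' i))
    - x i * ((v i - v₁ i) * (v i + v₁ i))
    - nl2 θ m₀ r x (fun j => u j - a j) (fun j => u j + a j) i / 2 - R i - nl1 θ g m₀ r x E i with hQ
  have key : (fun i => x' i - x i - stepMain θ g m₀ r δ x η i) = fun i => sol θ g m₀ r x Q i + E i := by
    have e1 : (fun i => η i + δ * bF θ g x i - x i * (a i / (1 - x i ^ 2)) ^ 2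
        - nl2 θ m₀ r x a a i / 2) + Q = η + rho := funext fun i => by
      simp only [Pi.add_apply, hQ, hrho, hw, hv2, ← nl2_diff, hv₁]; ring
    have e2 : stepMain θ g m₀ r δ x η + sol θ g m₀ r x Q = p := by
      rw [stepMain, ← ha, ← sol_add, e1, sol_add, ← ha, ← hpa, add_sub_cancel]
    funext i
    have := congrFun e2 i
    simp only [Pi.add_apply, hp] at this
    show u i - _ = _
    linarith
  rw [key]
  have hva : nrm (fun i => v i + v₁ i) ≤ 2 * (C * ξ) := (nrm_add_le _ _).trans (by linarith)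
  have hua2 : nrm (fun i => u i + a i) ≤ 2 * (C * ξ) := by
    refine (nrm_add_le _ _).trans ?_
    have : nrm a ≤ nrm v₁ := nrm_mono fun i => by
      rw [hv₁, abs_div, abs_of_pos (P.dpos i)]
      exact le_div_self (abs_nonneg _) (P.dpos i) (sub_le_self _ (sq_nonneg (x i)))
    linarith
  have q1 : nrm (fun i => δ * (bF θ g x' i - bF θ g x i) - δ ^ 2 * ((1 - qOf x') * x' i))
      ≤ 10 * δ * (C * ξ) := hshift.trans (shift_arith (by linarith) hu' hδ0 hξ0 hδξ)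
  have q2 : nrm (fun i => x i * ((v i - v₁ i) * (v i + v₁ i))) ≤
      (S * K + (C * ξ) ^ 2) * (2 * (C * ξ)) := by
    refine (nrm_mono (b := fun i => (v i - v₁ i) * (v i + v₁ i)) fun i => ?_).trans
      ((nrm_mul_le (fun i => v i - v₁ i) (fun i => v i + v₁ i)).trans
        (mul_le_mul hvd1 hva (nrm_nonneg _) (by positivity)))
    rw [abs_mul]
    exact mul_le_of_le_one_left (abs_nonneg _) (hxa i)
  have q3 : nrm (fun i => nl2 θ m₀ r x (fun j => u j - a j) (fun j => u j + a j) i / 2) ≤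
      L * (K / γ + 6 * (C * ξ) ^ 2) * (2 * (C * ξ)) := by
    refine (nrm_mono (b := nl2 θ m₀ r x (fun j => u j - a j) fun j => u j + a j) fun i => ?_).trans
      ((nl2_le P.pos P.θnonneg P.θle hxa hm _ _).trans ?_)
    · rw [abs_div, abs_two]
      linarith [abs_nonneg (nl2 θ m₀ r x (fun j => u j - a j) (fun j => u j + a j) i)]
    · rw [← hL]
      exact mul_le_mul (mul_le_mul_of_nonneg_left hua hL0.le) hua2 (nrm_nonneg _) (by positivity)
  have q5 : nrm (nl1 θ g m₀ r x E) ≤ L * (6 * (C * ξ) ^ 3) :=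
    (nl1_le P.pos P.θnonneg P.θle P.op hxa hm E).trans (mul_le_mul_of_nonneg_left hEcube hL0.le)
  have hQle : nrm Q ≤ 10 * δ * (C * ξ) + (S * K + (C * ξ) ^ 2) * (2 * (C * ξ))
      + L * (K / γ + 6 * (C * ξ) ^ 2) * (2 * (C * ξ)) + 7 * L * (C * ξ) ^ 3 * √n := by
    refine (nrm_sub5 _ _ _ _ _).trans ((add_le_add (add_le_add (add_le_add (add_le_add q1 q2) q3) hu3)
      q5).trans ?_)
    exact sum_arith hL0.le (mul_nonneg (by linarith) hξ0) hs1
  have hfin : nrm (sol θ g m₀ r x Q) ≤ nrm Q / γ := by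
    rw [le_div_iff₀ hγ, mul_comm]; exact sol_bound P Q
  refine (nrm_add_le _ _).trans ((add_le_add (hfin.trans (div_le_div_of_nonneg_right hQle hγ.le))
    hEcube).trans ?_)
  exact (expand_arith hγ hL0.le hS1 (by linarith) hξ0 hδ0 hn1).trans (le_of_eq (by
    rw [expandC, ← hL, ← hS, ← hC]))

end Vale.Agent.P150.Full.T.Cell
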