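import Vale.Agent.P150.Full.T.Cell.Scalar

/-!
# P150 no traps, N4: the gradient of the cell free energy along lines

The bounded part `nlF` of the gradient has derivatives of all orders up to three bounded by
constants of `r` on the cube, times the obvious powers of the length of the step.
-/

open Finset Real
open Vale.Agent.P150.Fast
open Vale.Agent.P150.Beyond Vale.Agent.P150.Beyond.Stability

namespace Vale.Agent.P150.Full.T.Cell

variable {n : ℕ} {θ r : ℝ} {g : Edge n → ℝ} {m₀ x a b u : Fin n → ℝ}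

/-- The Euclidean length. -/
noncomputable def nrm (a : Fin n → ℝ) : ℝ := √(∑ i, a i ^ 2)

theorem nrm_nonneg (a : Fin n → ℝ) : 0 ≤ nrm a := Real.sqrt_nonneg _

theorem nrm_sq (a : Fin n → ℝ) : nrm a ^ 2 = ∑ i, a i ^ 2 :=
  Real.sq_sqrt (Finset.sum_nonneg fun _ _ => sq_nonneg _)

theorem nrm_eq (a : Fin n → ℝ) : nrm a = ‖WithLp.toLp 2 a‖ := by
  simp [nrm, EuclideanSpace.norm_eq, sq_abs]

theorem nrm_add_le (a b : Fin n → ℝ) : nrm (fun i => a i + b i) ≤ nrm a + nrm b := by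
  simp only [nrm_eq]
  exact norm_add_le (WithLp.toLp 2 a) (WithLp.toLp 2 b)

theorem nrm_sub_le (a b : Fin n → ℝ) : nrm (fun i => a i - b i) ≤ nrm a + nrm b := by
  simp only [nrm_eq]
  exact norm_sub_le (WithLp.toLp 2 a) (WithLp.toLp 2 b)

theorem nrm_le_of_sq {a : Fin n → ℝ} {C : ℝ} (hC : 0 ≤ C) (h : ∑ i, a i ^ 2 ≤ C ^ 2) : nrm a ≤ C :=
  (Real.sqrt_le_sqrt h).trans_eq (Real.sqrt_sq hC)

theorem nrm_mono {a b : Fin n → ℝ} (h : ∀ i, |a i| ≤ |b i|) : nrm a ≤ nrm b :=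
  Real.sqrt_le_sqrt (Finset.sum_le_sum fun i _ => sq_le_sq.2 (h i))

theorem nrm_smul_le {a : Fin n → ℝ} {c C : ℝ} (hc : |c| ≤ C) : nrm (fun i => c * a i) ≤ C * nrm a := by
  have hC : 0 ≤ C := (abs_nonneg c).trans hc
  refine nrm_le_of_sq (mul_nonneg hC (nrm_nonneg a)) ?_
  rw [mul_pow, nrm_sq, Finset.mul_sum]
  refine Finset.sum_le_sum fun i _ => ?_
  rw [mul_pow]
  exact mul_le_mul_of_nonneg_right (sq_le_sq.2 (hc.trans (le_abs_self C))) (sq_nonneg _)

theorem abs_le_nrm (a : Fin n → ℝ) (i : Fin n) : |a i| ≤ nrm a :=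
  Real.abs_le_sqrt (Finset.single_le_sum (fun j _ => sq_nonneg (a j)) (Finset.mem_univ i))

theorem abs_sum_mul_le (a b : Fin n → ℝ) : |∑ i, a i * b i| ≤ nrm a * nrm b := by
  rw [nrm, nrm, ← Real.sqrt_mul (Finset.sum_nonneg fun _ _ => sq_nonneg _)]
  exact Real.abs_le_sqrt (Finset.sum_mul_sq_le_sq_mul_sq univ a b)

theorem nrm_le_sqrt {a : Fin n → ℝ} {C : ℝ} (hC : 0 ≤ C) (h : ∀ i, |a i| ≤ C) : nrm a ≤ C * √n := by
  refine nrm_le_of_sq (by positivity) ?_
  rw [mul_pow, Real.sq_sqrt n.cast_nonneg]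
  calc ∑ i, a i ^ 2 ≤ ∑ _i : Fin n, C ^ 2 :=
        Finset.sum_le_sum fun i _ => sq_le_sq.2 ((h i).trans (le_abs_self C))
    _ = C ^ 2 * n := by simp [mul_comm]

theorem nrm_cube {x : Fin n → ℝ} (hx : ∀ i, |x i| ≤ 1) : nrm x ≤ √n :=
  (nrm_le_sqrt zero_le_one hx).trans_eq (one_mul _)

theorem nrm_dev {x m₀ : Fin n → ℝ} (hx : ∀ i, |x i| ≤ 1) (hm : ∀ i, |m₀ i| ≤ 1) :
    nrm (fun i => x i - m₀ i) ≤ 2 * √n :=
  nrm_le_sqrt zero_le_two fun i => (abs_sub _ _).trans (by linarith [hx i, hm i])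

theorem dist2_le (hn : 0 < n) {x m₀ : Fin n → ℝ} (hx : ∀ i, |x i| ≤ 1) (hm : ∀ i, |m₀ i| ≤ 1) :
    dist2 m₀ x ≤ 4 := by
  rw [dist2, div_le_iff₀ (by exact_mod_cast hn), ← nrm_sq]
  refine (pow_le_pow_left₀ (nrm_nonneg _) (nrm_dev hx hm) 2).trans_eq ?_
  rw [mul_pow, Real.sq_sqrt n.cast_nonneg]
  ring

theorem nrm_couple_le (hop : OpBound g 3) (v : Fin n → ℝ) : nrm (couple g v) ≤ 3 * nrm v := by
  refine nrm_le_of_sq (by positivity [nrm_nonneg v]) ?_
  rw [mul_pow, nrm_sq]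
  exact mulVec_sq_le (fun i j => (isCoupling_skMat n 1 g).1 i j) (by norm_num) hop v

/-! ## Derivatives -/

/-- The derivative of `nlF` at `x` applied to `u`. -/
noncomputable def nl1 (θ : ℝ) (g : Edge n → ℝ) (m₀ : Fin n → ℝ) (r : ℝ) (x u : Fin n → ℝ)
    (i : Fin n) : ℝ :=
  θ ^ 2 * (1 - qOf x) * u i - 2 * θ ^ 2 / n * (∑ j, x j * u j) * x i - θ * couple g u i
    + 2 * chi1 r (dist2 m₀ x) * u i
    + 4 / n * chi2 r (dist2 m₀ x) * (∑ j, (x j - m₀ j) * u j) * (x i - m₀ i)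

/-- The second derivative of `nlF` at `x`. -/
noncomputable def nl2 (θ : ℝ) (m₀ : Fin n → ℝ) (r : ℝ) (x a b : Fin n → ℝ) (i : Fin n) : ℝ :=
  -(2 * θ ^ 2 / n) * ((∑ j, a j * b j) * x i + (∑ j, x j * a j) * b i + (∑ j, x j * b j) * a i)
    + 8 / (n : ℝ) ^ 2 * chi3 r (dist2 m₀ x) *
      ((∑ j, (x j - m₀ j) * a j) * (∑ j, (x j - m₀ j) * b j)) * (x i - m₀ i)
    + 4 / n * chi2 r (dist2 m₀ x) * ((∑ j, a j * b j) * (x i - m₀ i)
      + (∑ j, (x j - m₀ j) * a j) * b i + (∑ j, (x j - m₀ j) * b j) * a i)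

/-- The third derivative of `nlF` at `x` along `u`. -/
noncomputable def nl3 (θ : ℝ) (m₀ : Fin n → ℝ) (r : ℝ) (x u : Fin n → ℝ) (i : Fin n) : ℝ :=
  -(6 * θ ^ 2 / n) * (∑ j, u j * u j) * u i
    + 16 / (n : ℝ) ^ 3 * chi4 r (dist2 m₀ x) * (∑ j, (x j - m₀ j) * u j) ^ 3 * (x i - m₀ i)
    + 24 / (n : ℝ) ^ 2 * chi3 r (dist2 m₀ x) *
      ((∑ j, (x j - m₀ j) * u j) * (∑ j, u j * u j) * (x i - m₀ i)
        + (∑ j, (x j - m₀ j) * u j) ^ 2 * u i)
    + 12 / n * chi2 r (dist2 m₀ x) * (∑ j, u j * u j) * u i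

theorem nlB_eq (θ : ℝ) (g : Edge n → ℝ) (m₀ : Fin n → ℝ) (r : ℝ) (x a b : Fin n → ℝ) :
    nlB θ g m₀ r x a b = ∑ i, a i * nl1 θ g m₀ r x b i := by
  have e : ∑ i, a i * nl1 θ g m₀ r x b i = θ ^ 2 * (1 - qOf x) * (∑ i, a i * b i)
      - 2 * θ ^ 2 / n * (∑ j, x j * b j) * (∑ i, x i * a i) - θ * (∑ i, a i * couple g b i)
      + 2 * chi1 r (dist2 m₀ x) * (∑ i, a i * b i)
      + 4 / n * chi2 r (dist2 m₀ x) * (∑ j, (x j - m₀ j) * b j) * (∑ i, (x i - m₀ i) * a i) := by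
    simp only [Finset.mul_sum (a := θ ^ 2 * (1 - qOf x)), Finset.mul_sum (a := θ),
      Finset.mul_sum (a := 2 * θ ^ 2 / n * ∑ j, x j * b j), Finset.mul_sum (a := 2 * chi1 r (dist2 m₀ x)),
      Finset.mul_sum (a := 4 / n * chi2 r (dist2 m₀ x) * ∑ j, (x j - m₀ j) * b j),
      ← Finset.sum_sub_distrib, ← Finset.sum_add_distrib]
    exact Finset.sum_congr rfl fun i _ => by rw [nl1]; ring
  rw [e, nlB, bil_couple]
  ring

theorem hasDerivAt_sum_line (w x u : Fin n → ℝ) (t : ℝ) :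
    HasDerivAt (fun t => ∑ j, (x j + t * u j - w j) * u j) (∑ j, u j * u j) t :=
  HasDerivAt.fun_sum fun j _ => by
    simpa using ((((hasDerivAt_id t).mul_const (u j)).const_add (x j)).sub_const (w j)).mul_const (u j)

theorem hasDerivAt_dot_line (x u : Fin n → ℝ) (t : ℝ) :
    HasDerivAt (fun t => ∑ j, (x j + t * u j) * u j) (∑ j, u j * u j) t := by
  simpa using hasDerivAt_sum_line 0 x u t

theorem hasDerivAt_nlF (θ : ℝ) (g : Edge n → ℝ) (m₀ : Fin n → ℝ) (r : ℝ) (x u : Fin n → ℝ)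
    (i : Fin n) (t : ℝ) :
    HasDerivAt (fun t => nlF θ g m₀ r (fun j => x j + t * u j) i)
      (nl1 θ g m₀ r (fun j => x j + t * u j) u i) t := by
  have hl : ∀ j, HasDerivAt (fun t => x j + t * u j) (u j) t := fun j => by
    simpa using ((hasDerivAt_id t).mul_const (u j)).const_add (x j)
  have hq := (hasDerivAt_qOf_line x u t).const_sub 1
  have hc := (hasDerivAt_chi1 r _).comp t (hasDerivAt_dist2 m₀ x u t)
  have hJ : HasDerivAt (fun t => couple g (fun j => x j + t * u j) i) (couple g u i) t :=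
    HasDerivAt.fun_sum fun j _ => (hl j).const_mul _
  refine ((((hq.const_mul (θ ^ 2)).mul (hl i)).sub (hJ.const_mul θ)).add
    ((hc.const_mul 2).mul ((hl i).sub_const (m₀ i)))).congr_deriv ?_
  simp only [nl1, Function.comp_apply]
  ring

theorem hasDerivAt_nl1 (θ : ℝ) (g : Edge n → ℝ) (m₀ : Fin n → ℝ) (r : ℝ) (x u : Fin n → ℝ)
    (i : Fin n) (t : ℝ) :
    HasDerivAt (fun t => nl1 θ g m₀ r (fun j => x j + t * u j) u i)
      (nl2 θ m₀ r (fun j => x j + t * u j) u u i) t := by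
  have hl : HasDerivAt (fun t => x i + t * u i) (u i) t := by
    simpa using ((hasDerivAt_id t).mul_const (u i)).const_add (x i)
  have hq := (hasDerivAt_qOf_line x u t).const_sub 1
  have hd := hasDerivAt_dist2 m₀ x u t
  have h1 := (hasDerivAt_chi1 r _).comp t hd
  have h2 := (hasDerivAt_chi2 r _).comp t hd
  have hx := hasDerivAt_dot_line x u t
  have hw := hasDerivAt_sum_line m₀ x u t
  refine (((((hq.const_mul (θ ^ 2)).mul_const (u i)).sub ((hx.const_mul (2 * θ ^ 2 / n)).mul hl)).sub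
    (hasDerivAt_const t (θ * couple g u i))).add ((h1.const_mul 2).mul_const (u i)) |>.add
      ((((h2.const_mul (4 / (n : ℝ))).mul hw)).mul (hl.sub_const (m₀ i)))).congr_deriv ?_
  simp only [nl2, Function.comp_apply, Pi.mul_apply]
  ring

theorem hasDerivAt_nl2 (θ : ℝ) (m₀ : Fin n → ℝ) (r : ℝ) (x u : Fin n → ℝ) (i : Fin n) (t : ℝ) :
    HasDerivAt (fun t => nl2 θ m₀ r (fun j => x j + t * u j) u u i)
      (nl3 θ m₀ r (fun j => x j + t * u j) u i) t := by
  have hl : HasDerivAt (fun t => x i + t * u i) (u i) t := by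
    simpa using ((hasDerivAt_id t).mul_const (u i)).const_add (x i)
  have hd := hasDerivAt_dist2 m₀ x u t
  have h2 := (hasDerivAt_chi2 r _).comp t hd
  have h3 := (hasDerivAt_chi3 r _).comp t hd
  have hx := hasDerivAt_dot_line x u t
  have hw := hasDerivAt_sum_line m₀ x u t
  have hS := hasDerivAt_const t (∑ j, u j * u j)
  refine (((((hS.mul hl).add (hx.mul_const (u i))).add (hx.mul_const (u i))).const_mul
      (-(2 * θ ^ 2 / n))).add
    (((h3.const_mul (8 / (n : ℝ) ^ 2)).mul (hw.mul hw)).mul (hl.sub_const (m₀ i)))).add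
    ((h2.const_mul (4 / (n : ℝ))).mul
      (((hS.mul (hl.sub_const (m₀ i))).add (hw.mul_const (u i))).add (hw.mul_const (u i)))) |>.congr_deriv ?_
  simp only [nl3, Function.comp_apply, Pi.add_apply, Pi.mul_apply]
  ring

/-- The constant of the cell: a bound on the penalty and its derivatives. -/
noncomputable def penC (r : ℝ) : ℝ := 256 * chiC r

theorem penC_nonneg (r : ℝ) : 0 ≤ penC r := by
  have := chiC_nonneg r
  unfold penC; positivity

/-- A common bound on the derivatives of `nlF`. -/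
noncomputable def lipC (r : ℝ) : ℝ := 7 + 1000 * penC r

theorem lipC_pos (r : ℝ) : 0 < lipC r := by linarith [penC_nonneg r, show lipC r = 7 + 1000 * penC r from rfl]

theorem nl1_le (hn : 0 < n) (hθ0 : 0 ≤ θ) (hθ1 : θ ≤ 1) (hop : OpBound g 3) (hx : ∀ i, |x i| ≤ 1)
    (hm : ∀ i, |m₀ i| ≤ 1) (u : Fin n → ℝ) : nrm (nl1 θ g m₀ r x u) ≤ lipC r * nrm u := by
  have hn' : (0 : ℝ) < n := by exact_mod_cast hn
  have hs : √(n : ℝ) * √(n : ℝ) = n := Real.mul_self_sqrt hn'.le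
  have hu := nrm_nonneg u
  obtain ⟨-, hc1, hc2, -, -⟩ := chi_le (r := r) (dist2_le hn hx hm)
  rw [← penC] at hc1 hc2
  have h1 := chi1_nonneg r (dist2 m₀ x)
  have h2 := chi2_nonneg r (dist2 m₀ x)
  have hθ2 : θ ^ 2 ≤ 1 := by nlinarith
  set X := ∑ j, x j * u j with hX
  set P := ∑ j, (x j - m₀ j) * u j with hP
  have bX : |X| ≤ √n * nrm u :=
    (abs_sum_mul_le x u).trans (mul_le_mul_of_nonneg_right (nrm_cube hx) hu)
  have bP : |P| ≤ 2 * √n * nrm u :=
    (abs_sum_mul_le (fun j => x j - m₀ j) u).trans (mul_le_mul_of_nonneg_right (nrm_dev hx hm) hu)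
  have e : nl1 θ g m₀ r x u = fun i => ((θ ^ 2 * (1 - qOf x) + 2 * chi1 r (dist2 m₀ x)) * u i
      - 2 * θ ^ 2 / n * X * x i) - θ * couple g u i
      + 4 / n * chi2 r (dist2 m₀ x) * P * (x i - m₀ i) := funext fun i => by
    rw [nl1]; ring
  rw [e]
  refine (nrm_add_le _ _).trans ((add_le_add ((nrm_sub_le _ _).trans (add_le_add ((nrm_sub_le _ _).trans
    (add_le_add (nrm_smul_le (C := 1 + 2 * penC r) ?_) (nrm_smul_le (C := 2 / √n * nrm u) ?_)))
      (nrm_smul_le (C := 1) ?_))) (nrm_smul_le (C := 8 / √n * penC r * nrm u) ?_)).trans ?_)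
  · have hq0 := qOf_nonneg x
    have hq1 := qOf_le_one hx
    rw [abs_of_nonneg (add_nonneg (mul_nonneg (sq_nonneg θ) (sub_nonneg.2 hq1)) (by linarith))]
    nlinarith [mul_le_mul hθ2 (by linarith : 1 - qOf x ≤ 1) (by linarith) zero_le_one]
  · rw [abs_mul, abs_of_nonneg (by positivity : (0 : ℝ) ≤ 2 * θ ^ 2 / n)]
    refine (mul_le_mul (div_le_div_of_nonneg_right (by linarith : 2 * θ ^ 2 ≤ 2) hn'.le) bX
      (abs_nonneg _) (by positivity)).trans (le_of_eq ?_)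
    field_simp
    rw [Real.sq_sqrt hn'.le]
  · rw [abs_of_nonneg hθ0]; exact hθ1
  · rw [abs_mul, abs_mul, abs_of_nonneg h2, abs_of_nonneg (by positivity : (0 : ℝ) ≤ 4 / n)]
    refine (mul_le_mul (mul_le_mul_of_nonneg_left hc2 (by positivity)) bP
      (abs_nonneg _) (by have := penC_nonneg r; positivity)).trans (le_of_eq ?_)
    field_simp
    rw [Real.sq_sqrt hn'.le]
    ring
  · have hJ := nrm_couple_le hop u
    have hxn := nrm_cube hx
    have hdn := nrm_dev hx hm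
    have hp := penC_nonneg r
    have k1 : 2 / √n * nrm u * nrm x ≤ 2 * nrm u := by
      refine (mul_le_mul_of_nonneg_left hxn (by positivity)).trans (le_of_eq ?_)
      field_simp
    have k2 : 8 / √n * penC r * nrm u * nrm (fun i => x i - m₀ i) ≤ 16 * penC r * nrm u := by
      refine (mul_le_mul_of_nonneg_left hdn (by positivity)).trans (le_of_eq ?_)
      field_simp
      ring
    rw [lipC]
    nlinarith [mul_nonneg hp hu]

theorem abs_sum_sq (u : Fin n → ℝ) : ∑ j, u j * u j = nrm u ^ 2 := by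
  rw [nrm_sq]; exact Finset.sum_congr rfl fun j _ => (sq (u j)).symm

theorem nl2_le (hn : 0 < n) (hθ0 : 0 ≤ θ) (hθ1 : θ ≤ 1) (hx : ∀ i, |x i| ≤ 1) (hm : ∀ i, |m₀ i| ≤ 1)
    (a b : Fin n → ℝ) : nrm (nl2 θ m₀ r x a b) ≤ lipC r * nrm a * nrm b := by
  have hn' : (0 : ℝ) < n := by exact_mod_cast hn
  have hs1 : 1 ≤ √(n : ℝ) := Real.one_le_sqrt.2 (by exact_mod_cast hn)
  have ha := nrm_nonneg a
  have hb := nrm_nonneg b
  obtain ⟨-, -, hc2, hc3, -⟩ := chi_le (r := r) (dist2_le hn hx hm)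
  rw [← penC] at hc2 hc3
  have h2 := chi2_nonneg r (dist2 m₀ x)
  have hp := penC_nonneg r
  have hxn := nrm_cube hx
  have hdn := nrm_dev hx hm
  have hθ2 : θ ^ 2 ≤ 1 := by nlinarith
  set S := ∑ j, a j * b j
  set Xa := ∑ j, x j * a j
  set Xb := ∑ j, x j * b j
  set Pa := ∑ j, (x j - m₀ j) * a j
  set Pb := ∑ j, (x j - m₀ j) * b j
  have bS : |S| ≤ nrm a * nrm b := abs_sum_mul_le a b
  have bXa : |Xa| ≤ √n * nrm a := (abs_sum_mul_le x a).trans (mul_le_mul_of_nonneg_right hxn ha)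
  have bXb : |Xb| ≤ √n * nrm b := (abs_sum_mul_le x b).trans (mul_le_mul_of_nonneg_right hxn hb)
  have bPa : |Pa| ≤ 2 * √n * nrm a := (abs_sum_mul_le _ a).trans (mul_le_mul_of_nonneg_right hdn ha)
  have bPb : |Pb| ≤ 2 * √n * nrm b := (abs_sum_mul_le _ b).trans (mul_le_mul_of_nonneg_right hdn hb)
  have e : nl2 θ m₀ r x a b = fun i => ((-(2 * θ ^ 2 / n) * S) * x i
      + (8 / (n : ℝ) ^ 2 * chi3 r (dist2 m₀ x) * (Pa * Pb) + 4 / n * chi2 r (dist2 m₀ x) * S) * (x i - m₀ i))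
      + ((-(2 * θ ^ 2 / n) * Xa + 4 / n * chi2 r (dist2 m₀ x) * Pa) * b i
        + (-(2 * θ ^ 2 / n) * Xb + 4 / n * chi2 r (dist2 m₀ x) * Pb) * a i) := funext fun i => by
    rw [nl2]; ring
  rw [e]
  have q1 : |-(2 * θ ^ 2 / (n : ℝ))| ≤ 2 / (n : ℝ) := by
    rw [abs_neg, abs_of_nonneg (by positivity)]
    exact div_le_div_of_nonneg_right (by linarith) hn'.le
  have q2 : |4 / (n : ℝ) * chi2 r (dist2 m₀ x)| ≤ 4 / n * penC r := by
    rw [abs_of_nonneg (by positivity)]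
    exact mul_le_mul_of_nonneg_left hc2 (by positivity)
  have q3 : |8 / (n : ℝ) ^ 2 * chi3 r (dist2 m₀ x)| ≤ 8 / (n : ℝ) ^ 2 * penC r := by
    rw [abs_mul, abs_of_nonneg (by positivity)]
    exact mul_le_mul_of_nonneg_left hc3 (by positivity)
  have m {p q P Q : ℝ} (h1 : |p| ≤ P) (h2 : |q| ≤ Q) : |p * q| ≤ P * Q := by
    rw [abs_mul]; exact mul_le_mul h1 h2 (abs_nonneg _) ((abs_nonneg _).trans h1)
  refine (nrm_add_le _ _).trans ((add_le_add
    ((nrm_add_le _ _).trans (add_le_add (nrm_smul_le (m q1 bS))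
      (nrm_smul_le ((abs_add_le _ _).trans (add_le_add (m q3 (m bPa bPb)) (m q2 bS))))))
    ((nrm_add_le _ _).trans (add_le_add
      (nrm_smul_le ((abs_add_le _ _).trans (add_le_add (m q1 bXa) (m q2 bPa))))
      (nrm_smul_le ((abs_add_le _ _).trans (add_le_add (m q1 bXb) (m q2 bPb))))))).trans ?_)
  have key : ∀ K : ℝ, 0 ≤ K → K / n * √n * (nrm a * nrm b) ≤ K * (nrm a * nrm b) := fun K hK => by
    refine mul_le_mul_of_nonneg_right ?_ (mul_nonneg ha hb)
    rw [div_mul_eq_mul_div, div_le_iff₀ hn']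
    exact mul_le_mul_of_nonneg_left ((le_mul_of_one_le_right (Real.sqrt_nonneg _) hs1).trans_eq
      (Real.mul_self_sqrt hn'.le)) hK
  calc _ ≤ 2 / n * (nrm a * nrm b) * √n
        + (8 / (n : ℝ) ^ 2 * penC r * (2 * √n * nrm a * (2 * √n * nrm b))
          + 4 / n * penC r * (nrm a * nrm b)) * (2 * √n)
        + ((2 / n * (√n * nrm a) + 4 / n * penC r * (2 * √n * nrm a)) * nrm b
          + (2 / n * (√n * nrm b) + 4 / n * penC r * (2 * √n * nrm b)) * nrm a) :=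
        add_le_add (add_le_add (mul_le_mul_of_nonneg_left hxn (by positivity))
          (mul_le_mul_of_nonneg_left hdn (by positivity))) le_rfl
    _ = (6 + 88 * penC r) / n * √n * (nrm a * nrm b) := by
        field_simp
        rw [Real.sq_sqrt hn'.le]
        ring
    _ ≤ (6 + 88 * penC r) * (nrm a * nrm b) := key _ (by positivity)
    _ ≤ _ := by rw [lipC]; nlinarith [mul_nonneg ha hb, mul_nonneg hp (mul_nonneg ha hb)]

theorem nl3_le (hn : 0 < n) (hθ0 : 0 ≤ θ) (hθ1 : θ ≤ 1) (hx : ∀ i, |x i| ≤ 1) (hm : ∀ i, |m₀ i| ≤ 1)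
    (u : Fin n → ℝ) (i : Fin n) : |nl3 θ m₀ r x u i| ≤ lipC r * nrm u ^ 3 := by
  have hn1 : (1 : ℝ) ≤ n := by exact_mod_cast hn
  have hu := nrm_nonneg u
  obtain ⟨-, -, hc2, hc3, hc4⟩ := chi_le (r := r) (dist2_le hn hx hm)
  rw [← penC] at hc2 hc3 hc4
  have h2 := chi2_nonneg r (dist2 m₀ x)
  have hp := penC_nonneg r
  have hθ2 : θ ^ 2 ≤ 1 := by nlinarith
  have bw : |x i - m₀ i| ≤ 2 := (abs_sub _ _).trans (by linarith [hx i, hm i])
  have bu := abs_le_nrm u i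
  set P := ∑ j, (x j - m₀ j) * u j with hP
  have bP : |P| ≤ 2 * √n * nrm u :=
    (abs_sum_mul_le (fun j => x j - m₀ j) u).trans (mul_le_mul_of_nonneg_right (nrm_dev hx hm) hu)
  have bP2 : |P| ≤ 2 * n * nrm u := bP.trans (by
    nlinarith [Real.sqrt_le_self_iff.2 (Or.inr hn1), hu])
  have bS : |∑ j, u j * u j| ≤ nrm u ^ 2 := le_of_eq (by rw [abs_sum_sq, abs_of_nonneg (sq_nonneg _)])
  have bP22 : |P ^ 2| ≤ 4 * n * nrm u ^ 2 := by
    rw [abs_pow]
    refine (pow_le_pow_left₀ (abs_nonneg _) bP 2).trans (le_of_eq ?_)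
    rw [mul_pow, mul_pow, Real.sq_sqrt (by linarith)]
    ring
  have bP3 : |P ^ 3| ≤ 8 * (n : ℝ) ^ 2 * nrm u ^ 3 := by
    rw [pow_succ, abs_mul]
    exact (mul_le_mul bP22 bP2 (abs_nonneg _) (by positivity)).trans (le_of_eq (by ring))
  have m {p q A B : ℝ} (h1 : |p| ≤ A) (h2 : |q| ≤ B) : |p * q| ≤ A * B := by
    rw [abs_mul]; exact mul_le_mul h1 h2 (abs_nonneg _) ((abs_nonneg _).trans h1)
  have c1 : |-(6 * θ ^ 2 / (n : ℝ))| ≤ 6 := by
    rw [abs_neg, abs_of_nonneg (by positivity), div_le_iff₀ (by linarith)]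
    nlinarith
  have c4 : |16 / (n : ℝ) ^ 3 * chi4 r (dist2 m₀ x)| ≤ 16 / (n : ℝ) ^ 2 * penC r := by
    rw [abs_mul, abs_of_nonneg (by positivity)]
    refine mul_le_mul ?_ hc4 (abs_nonneg _) (by positivity)
    exact div_le_div_of_nonneg_left (by norm_num) (by positivity) (pow_le_pow_right₀ hn1 (by norm_num))
  have c3 : |24 / (n : ℝ) ^ 2 * chi3 r (dist2 m₀ x)| ≤ 24 / n * penC r := by
    rw [abs_mul, abs_of_nonneg (by positivity)]
    refine mul_le_mul ?_ hc3 (abs_nonneg _) (by positivity)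
    exact div_le_div_of_nonneg_left (by norm_num) (by linarith)
      ((pow_one (n : ℝ)).symm.trans_le (pow_le_pow_right₀ hn1 (by norm_num)))
  have c2 : |12 / (n : ℝ) * chi2 r (dist2 m₀ x)| ≤ 12 * penC r := by
    rw [abs_of_nonneg (by positivity)]
    exact mul_le_mul ((div_le_iff₀ (by linarith)).2 (by linarith)) hc2 h2 (by norm_num)
  rw [nl3]
  refine ((abs_add_le _ _).trans (add_le_add ((abs_add_le _ _).trans (add_le_add ((abs_add_le _ _).trans
    (add_le_add (m (m c1 bS) bu) (m (m c4 bP3) bw)))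
      (m c3 ((abs_add_le _ _).trans (add_le_add (m (m bP2 bS) bw) (m bP22 bu))))))
    (m (m c2 bS) bu))).trans ?_
  rw [lipC]
  field_simp
  nlinarith [pow_nonneg hu 3, mul_nonneg hp (pow_nonneg hu 3)]

/-- `nlF` is Lipschitz on the cube. -/
theorem nlF_lip (hn : 0 < n) (hθ0 : 0 ≤ θ) (hθ1 : θ ≤ 1) (hop : OpBound g 3) (hx : ∀ i, |x i| ≤ 1)
    (hu : ∀ i, |x i + u i| ≤ 1) (hm : ∀ i, |m₀ i| ≤ 1) :
    nrm (fun i => nlF θ g m₀ r (fun j => x j + u j) i - nlF θ g m₀ r x i) ≤ lipC r * nrm u := by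
  set w : Fin n → ℝ := fun i => nlF θ g m₀ r (fun j => x j + u j) i - nlF θ g m₀ r x i with hw
  have hin : ∀ t ∈ Set.uIcc (0 : ℝ) 1, ∀ i, |x i + t * u i| ≤ 1 := fun t ht i => by
    rw [Set.uIcc_of_le zero_le_one] at ht
    obtain ⟨a1, a2⟩ := abs_le.1 (hx i)
    obtain ⟨b1, b2⟩ := abs_le.1 (hu i)
    rw [abs_le]
    constructor <;> nlinarith [ht.1, ht.2]
  have h := abs_sub_le_of_deriv (f := fun t => ∑ i, w i * nlF θ g m₀ r (fun j => x j + t * u j) i)
    (f1 := fun t => ∑ i, w i * nl1 θ g m₀ r (fun j => x j + t * u j) u i) (a := 0) (b := 1)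
    (C := nrm w * (lipC r * nrm u))
    (fun t _ => HasDerivAt.fun_sum fun i _ => (hasDerivAt_nlF θ g m₀ r x u i t).const_mul _)
    fun t ht => (abs_sum_mul_le _ _).trans
      (mul_le_mul_of_nonneg_left (nl1_le hn hθ0 hθ1 hop (hin t ht) hm u) (nrm_nonneg w))
  simp only [one_mul, zero_mul, add_zero, sub_zero, abs_one, mul_one, ← Finset.sum_sub_distrib,
    ← mul_sub] at h
  have h2 : nrm w * nrm w ≤ nrm w * (lipC r * nrm u) := by
    refine le_trans (le_of_eq ?_) ((le_abs_self _).trans h)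
    rw [← sq, nrm_sq]
    exact Finset.sum_congr rfl fun i _ => by rw [sq]
  rcases (nrm_nonneg w).eq_or_lt with h0 | h0
  · rw [← h0]; exact mul_nonneg (lipC_pos r).le (nrm_nonneg u)
  · exact le_of_mul_le_mul_left h2 h0

/-- `nlF` to second order. -/
theorem nlF_taylor (hn : 0 < n) (hθ0 : 0 ≤ θ) (hθ1 : θ ≤ 1) (hx : ∀ i, |x i| ≤ 1)
    (hu : ∀ i, |x i + u i| ≤ 1) (hm : ∀ i, |m₀ i| ≤ 1) :
    nrm (fun i => nlF θ g m₀ r (fun j => x j + u j) i - nlF θ g m₀ r x i - nl1 θ g m₀ r x u i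
      - nl2 θ m₀ r x u u i / 2) ≤ lipC r * nrm u ^ 3 * √n := by
  refine nrm_le_sqrt (mul_nonneg (lipC_pos r).le (pow_nonneg (nrm_nonneg u) 3)) fun i => ?_
  have hin : ∀ t ∈ Set.uIcc (0 : ℝ) 1, ∀ i, |x i + t * u i| ≤ 1 := fun t ht i => by
    rw [Set.uIcc_of_le zero_le_one] at ht
    obtain ⟨a1, a2⟩ := abs_le.1 (hx i)
    obtain ⟨b1, b2⟩ := abs_le.1 (hu i)
    rw [abs_le]
    constructor <;> nlinarith [ht.1, ht.2]
  have h := taylor_three (f := fun t => nlF θ g m₀ r (fun j => x j + t * u j) i) (v := 1)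
    (fun t _ => hasDerivAt_nlF θ g m₀ r x u i t) (fun t _ => hasDerivAt_nl1 θ g m₀ r x u i t)
    (fun t _ => hasDerivAt_nl2 θ m₀ r x u i t) fun t ht => nl3_le hn hθ0 hθ1 (hin t ht) hm u i
  simp only [one_mul, zero_mul, add_zero, abs_one, one_pow, mul_one, one_div, ← div_eq_inv_mul] at h
  exact h

/-- The free energy beside the entropy, to second order. -/
theorem gcF_taylor (hn : 0 < n) (hθ0 : 0 ≤ θ) (hθ1 : θ ≤ 1) (y : Fin n → ℝ) (hx : ∀ i, |x i| ≤ 1)
    (hu : ∀ i, |x i + u i| ≤ 1) (hm : ∀ i, |m₀ i| ≤ 1) :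
    gcF θ g y m₀ r (fun j => x j + u j) - (∑ i, binEnt (x i + u i))
      ≤ gcF θ g y m₀ r x - (∑ i, binEnt (x i)) + ∑ i, (nlF θ g m₀ r x i - y i) * u i
        + (∑ i, u i * nl1 θ g m₀ r x u i) / 2 + lipC r * nrm u ^ 3 * √n := by
  set f : ℝ → ℝ := fun t => gcF θ g y m₀ r (fun j => x j + t * u j) - ∑ i, binEnt (x i + t * u i)
  have hin : ∀ t ∈ Set.uIcc (0 : ℝ) 1, ∀ i, |x i + t * u i| ≤ 1 := fun t ht i => by
    rw [Set.uIcc_of_le zero_le_one] at ht
    obtain ⟨a1, a2⟩ := abs_le.1 (hx i)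
    obtain ⟨b1, b2⟩ := abs_le.1 (hu i)
    rw [abs_le]
    constructor <;> nlinarith [ht.1, ht.2]
  have hn' : (n : ℝ) ≠ 0 := by exact_mod_cast hn.ne'
  have hf : ∀ t, HasDerivAt f
      (∑ i, (nlF θ g m₀ r (fun j => x j + t * u j) i - y i) * u i) t := fun t => by
    have hl : ∀ i, HasDerivAt (fun t => x i + t * u i) (u i) t := fun i => by
      simpa using ((hasDerivAt_id t).mul_const (u i)).const_add (x i)
    have hq := ((hasDerivAt_qOf_line x u t).const_sub 1).pow 2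
    have hc := ((hasDerivAt_chi0 r _).comp t (hasDerivAt_dist2 m₀ x u t)).const_mul (n : ℝ)
    have hB : HasDerivAt (fun t => bil g (fun j => x j + t * u j) (fun j => x j + t * u j))
        (2 * ∑ i, couple g (fun j => x j + t * u j) i * u i) t := by
      simp only [bil_line]
      refine ((((hasDerivAt_id t).const_mul 2).mul_const (bil g x u)).const_add (bil g x x)).add
        ((hasDerivAt_pow 2 t).mul_const (bil g u u)) |>.congr_deriv ?_
      have e : ∀ a, bil g a u = ∑ i, couple g a i * u i := fun a => by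
        rw [bil_comm, bil_couple]; exact Finset.sum_congr rfl fun i _ => mul_comm _ _
      have el : ∀ i, couple g (fun j => x j + t * u j) i = couple g x i + t * couple g u i := fun i => by
        simp only [couple, mul_add, Finset.sum_add_distrib, Finset.mul_sum]
        exact congrArg₂ (· + ·) rfl (Finset.sum_congr rfl fun j _ => by ring)
      simp only [e, el, add_mul, Finset.sum_add_distrib, mul_assoc, ← Finset.mul_sum]
      simp; ring
    have hy : HasDerivAt (fun t => ∑ i, y i * (x i + t * u i)) (∑ i, y i * u i) t :=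
      HasDerivAt.fun_sum fun i _ => (hl i).const_mul _
    refine (((((hB.const_mul (θ / 2)).neg).sub (hq.const_mul ((n : ℝ) * θ ^ 2 / 4))).sub hy).add hc
      ).congr_of_eventuallyEq (Filter.Eventually.of_forall fun s => ?_) |>.congr_deriv ?_
    · simp only [f, gcF, tapField, tap, bil, Pi.sub_apply, Pi.add_apply, Pi.neg_apply, Function.comp_apply,
        Pi.pow_apply]
      ring
    · simp only [nlF, sub_mul, add_mul, Finset.sum_add_distrib, Finset.sum_sub_distrib, mul_assoc,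
        ← Finset.mul_sum, Nat.cast_ofNat, Nat.add_one_sub_one, pow_one]
      field_simp
      ring
  have h2 : ∀ t, HasDerivAt (fun t => ∑ i, (nlF θ g m₀ r (fun j => x j + t * u j) i - y i) * u i)
      (∑ i, u i * nl1 θ g m₀ r (fun j => x j + t * u j) u i) t := fun t =>
    (HasDerivAt.fun_sum fun i _ => ((hasDerivAt_nlF θ g m₀ r x u i t).sub_const _).mul_const _).congr_deriv
      (Finset.sum_congr rfl fun i _ => mul_comm _ _)
  have h3 : ∀ t, HasDerivAt (fun t => ∑ i, u i * nl1 θ g m₀ r (fun j => x j + t * u j) u i)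
      (∑ i, u i * nl2 θ m₀ r (fun j => x j + t * u j) u u i) t := fun t =>
    HasDerivAt.fun_sum fun i _ => (hasDerivAt_nl1 θ g m₀ r x u i t).const_mul _
  have h := taylor_three (v := 1) (M := lipC r * nrm u ^ 3)
    (fun t _ => hf t) (fun t _ => h2 t) (fun t _ => h3 t) fun t ht => by
      refine (abs_sum_mul_le _ _).trans ?_
      refine (mul_le_mul_of_nonneg_left (nl2_le hn hθ0 hθ1 (hin t ht) hm u u) (nrm_nonneg u)).trans ?_
      exact le_of_eq (by ring)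
  simp only [f, one_mul, zero_mul, add_zero, abs_one, one_pow, mul_one] at h
  have hs1 : 1 ≤ √(n : ℝ) := Real.one_le_sqrt.2 (by exact_mod_cast hn)
  have hb : lipC r * nrm u ^ 3 ≤ lipC r * nrm u ^ 3 * √n := le_mul_of_one_le_right
    (mul_nonneg (lipC_pos r).le (pow_nonneg (nrm_nonneg u) 3)) hs1
  linarith [(abs_le.1 h).2]

end Vale.Agent.P150.Full.T.Cell
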