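import Vale.Agent.P150.Full.T.Pins
import Vale.Agent.P150.Beyond.Stability.Stable

/-!
# P150 no traps, N4: the convexified TAP free energy of a cell

`gcF` adds to the tilted TAP free energy a penalty vanishing within `3 r` of the centre `m₀` of the
cell; its Hessian is positive everywhere, so it has one critical point in the cube.
-/

open Finset Real Filter Topology
open Vale.Agent.P150.Fast
open Vale.Agent.P150.Beyond Vale.Agent.P150.Beyond.Stability

namespace Vale.Agent.P150.Full.T.Cell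

variable {n : ℕ}

/-! ## The penalty -/

theorem hasDerivAt_posPow (k : ℕ) (v : ℝ) :
    HasDerivAt (fun v => max 0 v ^ (k + 2)) ((k + 2 : ℕ) * max 0 v ^ (k + 1)) v := by
  rcases lt_trichotomy v 0 with h | rfl | h
  · rw [max_eq_left h.le, zero_pow (by omega), mul_zero]
    refine (hasDerivAt_const v (0 : ℝ)).congr_of_eventuallyEq ?_
    filter_upwards [Iio_mem_nhds h] with w hw
    rw [max_eq_left (Set.mem_Iio.1 hw).le, zero_pow (by omega)]
  · rw [max_self, zero_pow (by omega), mul_zero, hasDerivAt_iff_isLittleO_nhds_zero]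
    simp only [zero_add, max_self, zero_pow (show k + 2 ≠ 0 by omega), sub_zero, smul_zero]
    refine Asymptotics.IsBigO.trans_isLittleO (g := fun w : ℝ => w ^ (k + 2))
      (Asymptotics.isBigO_of_le _ fun w => ?_) (Asymptotics.isLittleO_pow_id (by omega))
    simp only [norm_pow, Real.norm_eq_abs]
    exact pow_le_pow_left₀ (abs_nonneg _) ((abs_of_nonneg (le_max_left 0 w)).trans_le
      (max_le (abs_nonneg _) (le_abs_self _))) _
  · rw [max_eq_right h.le]
    refine ((hasDerivAt_pow (k + 2) v).congr_of_eventuallyEq ?_).congr_deriv (by simp)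
    filter_upwards [Ioi_mem_nhds h] with w hw
    rw [max_eq_right (Set.mem_Ioi.1 hw).le]

/-- The scale of the penalty: its slope is `3` at `u = 49 r² / 4`. -/
noncomputable def chiC (r : ℝ) : ℝ := 3 / (13 / 4 * r ^ 2) ^ 4

/-- The penalty, as a function of the normalised squared distance `u` from the centre. -/
noncomputable def chi0 (r u : ℝ) : ℝ := chiC r / 5 * max 0 (u - 9 * r ^ 2) ^ 5

/-- Its slope. -/
noncomputable def chi1 (r u : ℝ) : ℝ := chiC r * max 0 (u - 9 * r ^ 2) ^ 4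

/-- Its second derivative. -/
noncomputable def chi2 (r u : ℝ) : ℝ := 4 * chiC r * max 0 (u - 9 * r ^ 2) ^ 3

/-- Its third derivative. -/
noncomputable def chi3 (r u : ℝ) : ℝ := 12 * chiC r * max 0 (u - 9 * r ^ 2) ^ 2

/-- Its fourth derivative. -/
noncomputable def chi4 (r u : ℝ) : ℝ := 24 * chiC r * max 0 (u - 9 * r ^ 2)

theorem chiC_nonneg (r : ℝ) : 0 ≤ chiC r := by unfold chiC; positivity

theorem hasDerivAt_chi0 (r u : ℝ) : HasDerivAt (chi0 r) (chi1 r u) u :=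
  (((hasDerivAt_posPow 3 (u - 9 * r ^ 2)).comp_sub_const u (9 * r ^ 2)).const_mul
    (chiC r / 5)).congr_deriv (by simp only [chi1]; push_cast; ring)

theorem hasDerivAt_chi1 (r u : ℝ) : HasDerivAt (chi1 r) (chi2 r u) u :=
  (((hasDerivAt_posPow 2 (u - 9 * r ^ 2)).comp_sub_const u (9 * r ^ 2)).const_mul
    (chiC r)).congr_deriv (by simp only [chi2]; push_cast; ring)

theorem hasDerivAt_chi2 (r u : ℝ) : HasDerivAt (chi2 r) (chi3 r u) u :=
  (((hasDerivAt_posPow 1 (u - 9 * r ^ 2)).comp_sub_const u (9 * r ^ 2)).const_mul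
    (4 * chiC r)).congr_deriv (by simp only [chi3]; push_cast; ring)

theorem hasDerivAt_chi3 (r u : ℝ) : HasDerivAt (chi3 r) (chi4 r u) u :=
  (((hasDerivAt_posPow 0 (u - 9 * r ^ 2)).comp_sub_const u (9 * r ^ 2)).const_mul
    (12 * chiC r)).congr_deriv (by simp only [chi4]; push_cast; ring)

theorem chi0_nonneg (r u : ℝ) : 0 ≤ chi0 r u := by
  have := chiC_nonneg r
  unfold chi0; positivity

theorem chi1_nonneg (r u : ℝ) : 0 ≤ chi1 r u := by
  have := chiC_nonneg r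
  unfold chi1; positivity

theorem chi2_nonneg (r u : ℝ) : 0 ≤ chi2 r u := by
  have := chiC_nonneg r
  unfold chi2; positivity

/-- Inside radius `3 r` the penalty and its derivatives vanish. -/
theorem chi_eq_zero {r u : ℝ} (h : u ≤ 9 * r ^ 2) :
    chi0 r u = 0 ∧ chi1 r u = 0 ∧ chi2 r u = 0 ∧ chi3 r u = 0 := by
  simp [chi0, chi1, chi2, chi3, max_eq_left (sub_nonpos.2 h)]

/-- Far out its slope is at least `3`. -/
theorem three_le_chi1 {r u : ℝ} (hr : r ≠ 0) (h : 49 / 4 * r ^ 2 ≤ u) : 3 ≤ chi1 r u := by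
  have h1 : (13 / 4 * r ^ 2) ^ 4 ≤ max 0 (u - 9 * r ^ 2) ^ 4 :=
    pow_le_pow_left₀ (by positivity) (le_max_of_le_right (by linarith)) 4
  have h2 : 0 < (13 / 4 * r ^ 2) ^ 4 := by positivity
  calc (3 : ℝ) = chiC r * (13 / 4 * r ^ 2) ^ 4 := by rw [chiC, div_mul_cancel₀ _ h2.ne']
    _ ≤ _ := mul_le_mul_of_nonneg_left h1 (chiC_nonneg r)

/-- On `[0, 4]` the derivatives are bounded by a constant depending on `r` only. -/
theorem chi_le {r u : ℝ} (h4 : u ≤ 4) :
    chi0 r u ≤ 256 * chiC r ∧ chi1 r u ≤ 256 * chiC r ∧ chi2 r u ≤ 256 * chiC r ∧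
      |chi3 r u| ≤ 256 * chiC r ∧ |chi4 r u| ≤ 256 * chiC r := by
  have hc := chiC_nonneg r
  have h0 : (0 : ℝ) ≤ max 0 (u - 9 * r ^ 2) := le_max_left _ _
  have h1 : max 0 (u - 9 * r ^ 2) ≤ 4 := max_le (by norm_num) (by linarith [sq_nonneg r])
  refine ⟨?_, ?_, ?_, ?_, ?_⟩
  · rw [chi0]; nlinarith [mul_le_mul_of_nonneg_left (pow_le_pow_left₀ h0 h1 5) hc]
  · rw [chi1]; nlinarith [mul_le_mul_of_nonneg_left (pow_le_pow_left₀ h0 h1 4) hc]
  · rw [chi2]; nlinarith [mul_le_mul_of_nonneg_left (pow_le_pow_left₀ h0 h1 3) hc]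
  · rw [chi3, abs_of_nonneg (by positivity)]
    nlinarith [mul_le_mul_of_nonneg_left (pow_le_pow_left₀ h0 h1 2) hc]
  · rw [chi4, abs_of_nonneg (by positivity)]
    nlinarith [mul_le_mul_of_nonneg_left h1 hc]

/-! ## The free energy of the cell -/

/-- The normalised squared distance from the centre. -/
noncomputable def dist2 (m₀ x : Fin n → ℝ) : ℝ := (∑ i, (x i - m₀ i) ^ 2) / n

/-- The convexified tilted free energy. -/
noncomputable def gcF (θ : ℝ) (g : Edge n → ℝ) (y m₀ : Fin n → ℝ) (r : ℝ) (x : Fin n → ℝ) : ℝ :=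
  tapField θ g y x + n * chi0 r (dist2 m₀ x)

/-- The bounded part of its gradient. -/
noncomputable def nlF (θ : ℝ) (g : Edge n → ℝ) (m₀ : Fin n → ℝ) (r : ℝ) (x : Fin n → ℝ)
    (i : Fin n) : ℝ :=
  θ ^ 2 * (1 - qOf x) * x i - θ * couple g x i + 2 * chi1 r (dist2 m₀ x) * (x i - m₀ i)

/-- The part of its Hessian beside `1 / (1 - x²)`, as a bilinear form. -/
noncomputable def nlB (θ : ℝ) (g : Edge n → ℝ) (m₀ : Fin n → ℝ) (r : ℝ) (x a b : Fin n → ℝ) : ℝ :=
  θ ^ 2 * (1 - qOf x) * (∑ i, a i * b i) - 2 * θ ^ 2 / n * (∑ i, x i * a i) * (∑ i, x i * b i)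
    - θ * bil g a b + 2 * chi1 r (dist2 m₀ x) * (∑ i, a i * b i)
    + 4 / n * chi2 r (dist2 m₀ x) * (∑ i, (x i - m₀ i) * a i) * (∑ i, (x i - m₀ i) * b i)

/-- The Hessian as a quadratic form. -/
noncomputable def hessC (θ : ℝ) (g : Edge n → ℝ) (m₀ : Fin n → ℝ) (r : ℝ) (x v : Fin n → ℝ) : ℝ :=
  (∑ i, v i ^ 2 / (1 - x i ^ 2)) + nlB θ g m₀ r x v v

theorem hessC_eq (θ : ℝ) (g : Edge n → ℝ) (m₀ : Fin n → ℝ) (r : ℝ) (x v : Fin n → ℝ) :
    hessC θ g m₀ r x v = Stability.hess θ g x v + 2 * chi1 r (dist2 m₀ x) * (∑ i, v i ^ 2)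
      + 4 / n * chi2 r (dist2 m₀ x) * (∑ i, (x i - m₀ i) * v i) ^ 2 := by
  simp only [hessC, nlB, Stability.hess, bil, sq]
  ring

theorem couple_eq (g : Edge n → ℝ) (v : Fin n → ℝ) (i : Fin n) :
    couple g v i = ∑ j, skMat n 1 g i j * v j := rfl

theorem bil_couple (g : Edge n → ℝ) (a b : Fin n → ℝ) : bil g a b = ∑ i, a i * couple g b i := by
  simp only [bil, couple, Finset.mul_sum]
  exact Finset.sum_congr rfl fun i _ => Finset.sum_congr rfl fun j _ => by ring

theorem hasDerivAt_dist2 (m₀ x d : Fin n → ℝ) (t : ℝ) :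
    HasDerivAt (fun t => dist2 m₀ fun i => x i + t * d i)
      (2 * (∑ i, (x i + t * d i - m₀ i) * d i) / n) t := by
  have hl : ∀ i, HasDerivAt (fun t => x i + t * d i - m₀ i) (d i) t := fun i => by
    simpa using (((hasDerivAt_id t).mul_const (d i)).const_add (x i)).sub_const (m₀ i)
  refine ((HasDerivAt.fun_sum fun i _ => (hl i).pow 2).div_const (n : ℝ)).congr_deriv ?_
  rw [Finset.mul_sum]
  congr 1
  exact Finset.sum_congr rfl fun i _ => by simp; ring

/-- The first derivative along a line. -/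
noncomputable def gcD (θ : ℝ) (g : Edge n → ℝ) (y m₀ : Fin n → ℝ) (r : ℝ) (x d : Fin n → ℝ) (t : ℝ) : ℝ :=
  ∑ i, (Stability.slope (x i + t * d i) + nlF θ g m₀ r (fun j => x j + t * d j) i - y i) * d i

theorem hasDerivAt_gcF_line (θ : ℝ) (g : Edge n → ℝ) (y m₀ : Fin n → ℝ) (r : ℝ) (hn : 0 < n)
    (x d : Fin n → ℝ) {t : ℝ} (ht : ∀ i, d i = 0 ∨ |x i + t * d i| < 1) :
    HasDerivAt (fun t => gcF θ g y m₀ r fun i => x i + t * d i) (gcD θ g y m₀ r x d t) t := by
  have hn' : (n : ℝ) ≠ 0 := by exact_mod_cast hn.ne'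
  have h1 := hasDerivAt_tap_line θ g hn x d ht
  have h2 : HasDerivAt (fun t => ∑ i, y i * (x i + t * d i)) (∑ i, y i * d i) t :=
    HasDerivAt.fun_sum fun i _ => by
      simpa using (((hasDerivAt_id t).mul_const (d i)).const_add (x i)).const_mul (y i)
  have h3 := ((hasDerivAt_chi0 r _).comp t (hasDerivAt_dist2 m₀ x d t)).const_mul (n : ℝ)
  refine ((h1.sub h2).add h3).congr_deriv ?_
  set z : Fin n → ℝ := fun i => x i + t * d i with hz
  have hJ : bil g x d + t * bil g d d = ∑ i, couple g z i * d i := by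
    have : ∀ a b : Fin n → ℝ, bil g a b = ∑ i, couple g a i * b i := fun a b => by
      rw [bil_comm, bil_couple]; exact Finset.sum_congr rfl fun i _ => mul_comm _ _
    rw [this, this, Finset.mul_sum, ← Finset.sum_add_distrib]
    refine Finset.sum_congr rfl fun i _ => ?_
    simp only [couple, hz, mul_add, Finset.sum_add_distrib, add_mul, Finset.sum_mul, Finset.mul_sum]
    exact congrArg₂ (· + ·) rfl (Finset.sum_congr rfl fun j _ => by ring)
  have e : (n : ℝ) * (chi1 r (dist2 m₀ z) * (2 * (∑ i, (z i - m₀ i) * d i) / n))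
      = 2 * chi1 r (dist2 m₀ z) * ∑ i, (z i - m₀ i) * d i := by field_simp
  show tapD θ g x d t - (∑ i, y i * d i)
    + (n : ℝ) * (chi1 r (dist2 m₀ z) * (2 * (∑ i, (z i - m₀ i) * d i) / n)) = _
  have en : ∑ i, nlF θ g m₀ r z i * d i = θ ^ 2 * (1 - qOf z) * (∑ i, z i * d i)
      - θ * (∑ i, couple g z i * d i) + 2 * chi1 r (dist2 m₀ z) * ∑ i, (z i - m₀ i) * d i := by
    simp only [Finset.mul_sum, ← Finset.sum_sub_distrib, ← Finset.sum_add_distrib]
    exact Finset.sum_congr rfl fun i _ => by rw [nlF]; ring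
  rw [e, tapD, hJ, gcD]
  have hzi : ∀ i, x i + t * d i = z i := fun i => rfl
  simp only [hzi]
  simp only [add_mul, sub_mul, Finset.sum_add_distrib, Finset.sum_sub_distrib, en]
  ring

theorem hasDerivAt_gcD (θ : ℝ) (g : Edge n → ℝ) (y m₀ : Fin n → ℝ) (r : ℝ) (x d : Fin n → ℝ) {t : ℝ}
    (ht : ∀ i, |x i + t * d i| < 1) :
    HasDerivAt (gcD θ g y m₀ r x d) (hessC θ g m₀ r (fun i => x i + t * d i) d) t := by
  set z : Fin n → ℝ := fun i => x i + t * d i with hz
  have hl : ∀ i, HasDerivAt (fun t => x i + t * d i) (d i) t := fun i => by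
    simpa using ((hasDerivAt_id t).mul_const (d i)).const_add (x i)
  have hq := (hasDerivAt_qOf_line x d t).const_sub 1
  have hc := (hasDerivAt_chi1 r _).comp t (hasDerivAt_dist2 m₀ x d t)
  have hJ : ∀ i, HasDerivAt (fun t => couple g (fun j => x j + t * d j) i) (couple g d i) t := fun i =>
    HasDerivAt.fun_sum fun j _ => (hl j).const_mul _
  have h : ∀ i, HasDerivAt
      (fun t => (Stability.slope (x i + t * d i) + nlF θ g m₀ r (fun j => x j + t * d j) i - y i) * d i)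
      ((1 / (1 - z i ^ 2) * d i + (θ ^ 2 * -(2 * (∑ j, z j * d j) / n) * z i + θ ^ 2 * (1 - qOf z) * d i
          - θ * couple g d i + (2 * (chi2 r (dist2 m₀ z) * (2 * (∑ j, (z j - m₀ j) * d j) / n)) * (z i - m₀ i)
            + 2 * chi1 r (dist2 m₀ z) * d i))) * d i) t := fun i =>
    ((((hasDerivAt_slope (ht i)).comp t (hl i)).add
      ((((hq.const_mul (θ ^ 2)).mul (hl i)).sub ((hJ i).const_mul θ)).add
        ((hc.const_mul 2).mul ((hl i).sub_const (m₀ i))))).sub_const (y i)).mul_const (d i)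
  refine (HasDerivAt.fun_sum fun i _ => h i).congr_deriv ?_
  simp only [hessC, nlB, bil_couple]
  have e2 : ∑ i, d i * couple g d i = ∑ i, couple g d i * d i :=
    Finset.sum_congr rfl fun i _ => mul_comm _ _
  rw [e2]
  have e1 : ∑ i, d i ^ 2 / (1 - z i ^ 2) = ∑ i, 1 / (1 - z i ^ 2) * d i * d i :=
    Finset.sum_congr rfl fun i _ => by ring
  rw [e1]
  simp only [add_mul, sub_mul, Finset.sum_add_distrib, Finset.sum_sub_distrib, mul_assoc, ← Finset.mul_sum]
  ring

theorem qOf_nonneg (x : Fin n → ℝ) : 0 ≤ qOf x :=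
  div_nonneg (Finset.sum_nonneg fun i _ => sq_nonneg _) n.cast_nonneg

theorem qOf_le_one {x : Fin n → ℝ} (hx : ∀ i, |x i| ≤ 1) : qOf x ≤ 1 :=
  div_le_one_of_le₀ ((Finset.sum_le_sum (g := fun _ => (1 : ℝ)) fun i _ =>
    (sq_le_one_iff_abs_le_one _).2 (hx i)).trans (by simp)) n.cast_nonneg

/-- The Hessian of TAP is bounded below on the whole cube. -/
theorem hess_ge {θ : ℝ} {g : Edge n → ℝ} (hθ0 : 0 ≤ θ) (hθ1 : θ ≤ 1) (hop : OpBound g 3) {x : Fin n → ℝ}
    (hx : ∀ i, |x i| < 1) (v : Fin n → ℝ) : -4 * ∑ i, v i ^ 2 ≤ Stability.hess θ g x v := by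
  have hS : 0 ≤ ∑ i, v i ^ 2 := Finset.sum_nonneg fun i _ => sq_nonneg _
  have hd : ∑ i, v i ^ 2 ≤ ∑ i, v i ^ 2 / (1 - x i ^ 2) := Finset.sum_le_sum fun i _ => by
    have := (sq_lt_one_iff_abs_lt_one _).2 (hx i)
    rw [le_div_iff₀ (by linarith)]
    nlinarith [sq_nonneg (v i), sq_nonneg (x i), mul_nonneg (sq_nonneg (v i)) (sq_nonneg (x i))]
  have hcs := Finset.sum_mul_sq_le_sq_mul_sq univ x v
  have hq : (∑ i, x i ^ 2) / n ≤ 1 := qOf_le_one fun i => (hx i).le
  have hr : 2 * θ ^ 2 / n * (∑ i, x i * v i) ^ 2 ≤ 2 * ∑ i, v i ^ 2 := by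
    calc 2 * θ ^ 2 / n * (∑ i, x i * v i) ^ 2 ≤ 2 * θ ^ 2 / n * ((∑ i, x i ^ 2) * ∑ i, v i ^ 2) :=
          mul_le_mul_of_nonneg_left hcs (by positivity)
      _ = 2 * θ ^ 2 * ((∑ i, x i ^ 2) / n) * ∑ i, v i ^ 2 := by ring
      _ ≤ 2 * 1 * 1 * ∑ i, v i ^ 2 := by
          refine mul_le_mul_of_nonneg_right (mul_le_mul (by nlinarith) hq ?_ (by norm_num)) hS
          positivity
      _ = _ := by ring
  have hb : θ * bil g v v ≤ 3 * ∑ i, v i ^ 2 := by
    refine (mul_le_mul_of_nonneg_left ((le_abs_self _).trans (hop v)) hθ0).trans ?_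
    nlinarith
  have hs : 0 ≤ θ ^ 2 * (1 - qOf x) * ∑ i, v i ^ 2 :=
    mul_nonneg (mul_nonneg (sq_nonneg θ) (sub_nonneg.2 (qOf_le_one fun i => (hx i).le))) hS
  rw [bil] at hb
  rw [Stability.hess]
  linarith

/-- The setting of one cell: the events at the cell, with `γ ≤ 1`. -/
structure CellSetting (β r γ : ℝ) (g : Edge n → ℝ) (m₀ : Fin n → ℝ) : Prop where
  pos : 0 < n
  rpos : 0 < r
  γpos : 0 < γ
  γle : γ ≤ 1
  βle : β ≤ 1
  centre : ∀ i, |m₀ i| ≤ 1
  op : OpBound g 3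
  margin : ∀ θ : ℝ, 0 ≤ θ → θ ≤ β → ∀ x : Fin n → ℝ, (∀ i, |x i| < 1) →
    ∑ i, (x i - m₀ i) ^ 2 ≤ 16 * r ^ 2 * n → ∀ v, γ * ∑ i, v i ^ 2 ≤ Stability.hess θ g x v

variable {β r γ θ : ℝ} {g : Edge n → ℝ} {m₀ x v : Fin n → ℝ}

/-- The convexified Hessian is positive everywhere. -/
theorem hessC_ge (S : CellSetting β r γ g m₀) (hθ0 : 0 ≤ θ) (hθ : θ ≤ β) (hx : ∀ i, |x i| < 1)
    (v : Fin n → ℝ) : γ * ∑ i, v i ^ 2 ≤ hessC θ g m₀ r x v := by
  have hn' : (0 : ℝ) < n := by exact_mod_cast S.pos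
  have hS : 0 ≤ ∑ i, v i ^ 2 := Finset.sum_nonneg fun i _ => sq_nonneg _
  have h1 := chi1_nonneg r (dist2 m₀ x)
  have h2 : 0 ≤ 4 / n * chi2 r (dist2 m₀ x) * (∑ i, (x i - m₀ i) * v i) ^ 2 := by
    have := chi2_nonneg r (dist2 m₀ x)
    positivity
  rw [hessC_eq]
  rcases le_total (dist2 m₀ x) (49 / 4 * r ^ 2) with hu | hu
  · rw [dist2, div_le_iff₀ hn'] at hu
    have h := S.margin θ hθ0 hθ x hx (hu.trans (by nlinarith [sq_nonneg r])) v
    nlinarith [mul_nonneg h1 hS]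
  · have h := three_le_chi1 S.rpos.ne' hu
    have := hess_ge hθ0 (hθ.trans S.βle) S.op hx v
    nlinarith [mul_le_mul_of_nonneg_right h hS, S.γle]

/-- It also dominates a multiple of `v² / (1 - x²)`. -/
theorem hessC_ge_scaled (S : CellSetting β r γ g m₀) (hθ0 : 0 ≤ θ) (hθ : θ ≤ β) (hx : ∀ i, |x i| < 1)
    (v : Fin n → ℝ) : γ / 7 * ∑ i, v i ^ 2 / (1 - x i ^ 2) ≤ hessC θ g m₀ r x v := by
  have hS : 0 ≤ ∑ i, v i ^ 2 := Finset.sum_nonneg fun i _ => sq_nonneg _
  have hA := hessC_ge S hθ0 hθ hx v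
  have hD : ∑ i, v i ^ 2 / (1 - x i ^ 2) ≤ hessC θ g m₀ r x v + 5 * ∑ i, v i ^ 2 := by
    have h := hess_ge hθ0 (hθ.trans S.βle) S.op hx v
    have hcs := Finset.sum_mul_sq_le_sq_mul_sq univ x v
    have hq : (∑ i, x i ^ 2) / n ≤ 1 := qOf_le_one fun i => (hx i).le
    have hθ1 : θ ≤ 1 := hθ.trans S.βle
    have hr : 2 * θ ^ 2 / n * (∑ i, x i * v i) ^ 2 ≤ 2 * ∑ i, v i ^ 2 := by
      calc 2 * θ ^ 2 / n * (∑ i, x i * v i) ^ 2 ≤ 2 * θ ^ 2 / n * ((∑ i, x i ^ 2) * ∑ i, v i ^ 2) :=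
            mul_le_mul_of_nonneg_left hcs (by positivity)
        _ = 2 * θ ^ 2 * ((∑ i, x i ^ 2) / n) * ∑ i, v i ^ 2 := by ring
        _ ≤ 2 * 1 * 1 * ∑ i, v i ^ 2 := by
            refine mul_le_mul_of_nonneg_right (mul_le_mul (by nlinarith) hq ?_ (by norm_num)) hS
            positivity
        _ = _ := by ring
    have hb : θ * bil g v v ≤ 3 * ∑ i, v i ^ 2 := by
      refine (mul_le_mul_of_nonneg_left ((le_abs_self _).trans (S.op v)) hθ0).trans ?_
      nlinarith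
    have hs : 0 ≤ θ ^ 2 * (1 - qOf x) * ∑ i, v i ^ 2 :=
      mul_nonneg (mul_nonneg (sq_nonneg θ) (sub_nonneg.2 (qOf_le_one fun i => (hx i).le))) hS
    have h1 := mul_nonneg (chi1_nonneg r (dist2 m₀ x)) hS
    have h2 : 0 ≤ 4 / n * chi2 r (dist2 m₀ x) * (∑ i, (x i - m₀ i) * v i) ^ 2 := by
      have := chi2_nonneg r (dist2 m₀ x)
      positivity
    rw [bil] at hb
    rw [hessC_eq, Stability.hess]
    linarith
  have hH : 0 ≤ hessC θ g m₀ r x v := le_trans (mul_nonneg S.γpos.le hS) hA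
  nlinarith [mul_le_mul_of_nonneg_left hD S.γpos.le, mul_le_mul_of_nonneg_right S.γle hH, S.γpos]

theorem continuous_gcF (θ : ℝ) (g : Edge n → ℝ) (y m₀ : Fin n → ℝ) (r : ℝ) :
    Continuous (gcF θ g y m₀ r) := by
  have := continuous_tap θ g
  unfold gcF tapField chi0 dist2
  fun_prop

theorem gcF_convex_lower (S : CellSetting β r γ g m₀) (hθ0 : 0 ≤ θ) (hθ : θ ≤ β) (y : Fin n → ℝ)
    {x x' : Fin n → ℝ} (hx : ∀ i, |x i| < 1) (hx' : ∀ i, |x' i| < 1) :
    γ * ∑ i, (x' i - x i) ^ 2 ≤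
      ∑ i, ((Stability.slope (x' i) + nlF θ g m₀ r x' i - y i) - (Stability.slope (x i) + nlF θ g m₀ r x i - y i)) *
        (x' i - x i) := by
  set d : Fin n → ℝ := fun i => x' i - x i
  have hin : ∀ t ∈ Set.Icc (0 : ℝ) 1, ∀ i, |x i + t * d i| < 1 :=
    fun t ht i => line_abs_lt (hx i) (hx' i) ht.1 ht.2
  obtain ⟨c, hc, he⟩ := exists_hasDerivAt_eq_slope (gcD θ g y m₀ r x d) _ zero_lt_one
    (fun t ht => (hasDerivAt_gcD θ g y m₀ r x d (hin t ht)).continuousAt.continuousWithinAt)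
    (fun t ht => hasDerivAt_gcD θ g y m₀ r x d (hin t ⟨ht.1.le, ht.2.le⟩))
  have h := hessC_ge S hθ0 hθ (hin c ⟨hc.1.le, hc.2.le⟩) d
  rw [he] at h
  simp only [gcD, sub_zero, div_one, zero_mul, add_zero, one_mul, d, add_sub_cancel] at h
  simp only [sub_mul, Finset.sum_sub_distrib] at h ⊢
  linarith

/-- Near the boundary of the cube the binary entropy beats any linear function. -/
theorem binEnt_one_sub_le {t : ℝ} (h0 : 0 < t) (h1 : t < 1) :
    binEnt (1 - t) ≤ binEnt 1 + t * Real.log t / 2 := by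
  have h2 : Real.log (2 - t) ≤ Real.log 2 := Real.log_le_log (by linarith) (by linarith)
  have h3 : 0 ≤ Real.log 2 := Real.log_nonneg one_le_two
  simp only [binEnt]
  rw [show 1 + (1 - t) = 2 - t by ring, show 1 - (1 - t) = t by ring, show (1 : ℝ) + 1 = 2 by norm_num,
    sub_self, zero_mul, add_zero]
  nlinarith [mul_le_mul_of_nonneg_left h2 (by linarith : (0 : ℝ) ≤ 2 - t)]

theorem binEnt_neg (m : ℝ) : binEnt (-m) = binEnt m := by
  simp only [binEnt, sub_neg_eq_add, ← sub_eq_add_neg]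
  ring

/-- The free energy of the cell has a critical point in the open cube, its minimiser. -/
theorem exists_min (θ : ℝ) (g : Edge n → ℝ) (hn : 0 < n) (y m₀ : Fin n → ℝ) (r : ℝ) :
    ∃ x : Fin n → ℝ, (∀ i, |x i| < 1) ∧ (∀ i, Stability.slope (x i) + nlF θ g m₀ r x i = y i) ∧
      ∀ x' : Fin n → ℝ, (∀ i, |x' i| ≤ 1) → gcF θ g y m₀ r x ≤ gcF θ g y m₀ r x' := by
  obtain ⟨x, hx, hmin⟩ := isCompact_Icc.exists_isMinOn
    (show (Set.Icc (-1 : Fin n → ℝ) 1).Nonempty from ⟨0, by simp [Set.mem_Icc]⟩)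
    (continuous_gcF θ g y m₀ r).continuousOn
  have hmin' : ∀ x' : Fin n → ℝ, (∀ i, |x' i| ≤ 1) → gcF θ g y m₀ r x ≤ gcF θ g y m₀ r x' :=
    fun x' h' => hmin ⟨fun i => (abs_le.1 (h' i)).1, fun i => (abs_le.1 (h' i)).2⟩
  have hab : ∀ i, |x i| ≤ 1 := fun i => abs_le.2 ⟨hx.1 i, hx.2 i⟩
  have hopen : ∀ i, |x i| < 1 := by
    intro k
    by_contra hk
    have hk1 : |x k| = 1 := le_antisymm (hab k) (not_lt.1 hk)
    set d : Fin n → ℝ := Pi.single k (-x k) with hd
    -- the part of the free energy beside the entropy of site `k` is Lipschitz along the segment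
    set z : ℝ → Fin n → ℝ := fun t i => x i + t * d i with hz
    have hval : ∀ t : ℝ, z t k = x k * (1 - t) := fun t => by simp [hz, hd]; ring
    have hent : ∀ t : ℝ, binEnt (z t k) = binEnt (1 - t) := fun t => by
      rcases abs_eq zero_le_one |>.1 hk1 with e | e <;> rw [hval, e]
      · rw [one_mul]
      · rw [neg_one_mul, binEnt_neg]
    obtain ⟨C, hC⟩ := (isCompact_Icc (a := (0 : ℝ)) (b := 1)).exists_bound_of_continuousOn
      (f := fun t => ∑ i, (nlF θ g m₀ r (z t) i - y i) * d i) (by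
        have hc : Continuous (chi1 r) := by unfold chi1; fun_prop
        unfold nlF qOf couple dist2
        fun_prop)
    set t₀ := min (1 / 2) (Real.exp (-2 * C - 1)) with ht₀
    have ht : 0 < t₀ := lt_min (by norm_num) (Real.exp_pos _)
    have ht1 : t₀ < 1 := lt_of_le_of_lt (min_le_left _ _) (by norm_num)
    have hin : ∀ t ∈ Set.Icc (0 : ℝ) 1, ∀ i, |z t i| ≤ 1 := fun t htt i => by
      rcases eq_or_ne i k with rfl | hi
      · rw [hval, abs_mul, hk1, one_mul, abs_le]; constructor <;> linarith [htt.1, htt.2]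
      · simp [hz, hd, Pi.single_eq_of_ne hi, hab i]
    -- `gcF` without the entropy of site `k`
    set R : ℝ → ℝ := fun t => gcF θ g y m₀ r (z t) - binEnt (z t k) with hR
    have hRd : ∀ t ∈ Set.Ioo (0 : ℝ) t₀,
        HasDerivAt R (∑ i, (nlF θ g m₀ r (z t) i - y i) * d i) t := fun t htt => by
      have htk : |z t k| < 1 := by
        rw [hval, abs_mul, hk1, one_mul, abs_lt]; constructor <;> linarith [htt.1, htt.2]
      have hall : ∀ i, d i = 0 ∨ |x i + t * d i| < 1 := fun i => by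
        rcases eq_or_ne i k with rfl | hi
        · exact Or.inr htk
        · exact Or.inl (by simp [hd, Pi.single_eq_of_ne hi])
      have hzk : HasDerivAt (fun t => z t k) (d k) t := by
        simpa [hz] using ((hasDerivAt_id t).mul_const (d k)).const_add (x k)
      refine ((hasDerivAt_gcF_line θ g y m₀ r hn x d hall).sub
        ((hasDerivAt_binEnt htk).comp t hzk)).congr_deriv ?_
      simp only [gcD, add_sub_assoc, add_mul, Finset.sum_add_distrib]
      rw [Finset.sum_eq_single k (f := fun i => Stability.slope (x i + t * d i) * d i)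
        (fun i _ hi => by simp [hd, Pi.single_eq_of_ne hi]) (by simp)]
      simp [hz]
    have hRc : Continuous R := by
      have := continuous_gcF θ g y m₀ r
      have := continuous_binEnt
      simp only [hR, hz]
      fun_prop
    obtain ⟨c, hc, he⟩ := exists_hasDerivAt_eq_slope R _ ht hRc.continuousOn hRd
    have hbd : R t₀ - R 0 ≤ C * t₀ := by
      rw [eq_div_iff (by linarith : t₀ - 0 ≠ 0)] at he
      have := hC c ⟨hc.1.le, (hc.2.trans ht1).le⟩
      rw [Real.norm_eq_abs] at this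
      nlinarith [le_abs_self (∑ i, (nlF θ g m₀ r (z c) i - y i) * d i)]
    have hlog : Real.log t₀ ≤ -2 * C - 1 :=
      (Real.log_le_log ht (min_le_right _ _)).trans (le_of_eq (Real.log_exp _))
    have hlt : gcF θ g y m₀ r (z t₀) < gcF θ g y m₀ r (z 0) := by
      have e0 : binEnt (z 0 k) = binEnt 1 := by rw [hent, sub_zero]
      have e1 := binEnt_one_sub_le ht ht1
      rw [← hent] at e1
      have hsum : gcF θ g y m₀ r (z t₀) - gcF θ g y m₀ r (z 0)
          ≤ C * t₀ + t₀ * Real.log t₀ / 2 := by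
        simp only [hR] at hbd
        linarith
      nlinarith [mul_le_mul_of_nonneg_left hlog ht.le]
    have e : z 0 = x := funext fun i => by simp [hz]
    rw [e] at hlt
    exact absurd (hmin' _ (hin t₀ ⟨ht.le, ht1.le⟩)) (not_le.2 hlt)
  refine ⟨x, hopen, fun k => ?_, hmin'⟩
  have hd := hasDerivAt_gcF_line θ g y m₀ r hn x (Pi.single k 1) (t := 0)
    fun i => Or.inr (by simpa using hopen i)
  have hloc : IsLocalMin (fun t : ℝ => gcF θ g y m₀ r fun i => x i + t * Pi.single (M := fun _ => ℝ) k 1 i) 0 := by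
    have hev : ∀ᶠ t : ℝ in 𝓝 0, |x k + t * 1| < 1 :=
      (isOpen_lt (by fun_prop) continuous_const).mem_nhds (by simpa using hopen k)
    filter_upwards [hev] with t ht
    simp only [zero_mul, add_zero]
    refine hmin' _ fun i => ?_
    rcases eq_or_ne i k with rfl | hi
    · simpa using ht.le
    · simpa [Pi.single_eq_of_ne hi] using hab i
  have h0 := hloc.hasDerivAt_eq_zero hd
  simp [gcD, Pi.single_apply] at h0
  linarith

end Vale.Agent.P150.Full.T.Cell
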