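import Vale.Agent.P150.Full.T.ChannelPins
import Vale.Agent.P150.Full.T.Cell.Expand
import Vale.Agent.P150.Beyond.Squares
import Vale.Agent.P150.Guerra

/-!
# P150 no traps, N4: moments of one step of the channel

Given the signal `σ`, the field moves by `η = δ Pσ + √δ A z` with `P = A Aᵀ = K + 5`.
-/

open Finset MeasureTheory Real
open Vale.Agent.P150.Fast
open Vale.Agent.P150.Beyond Vale.Agent.P150.Beyond.Stability

namespace Vale.Agent.P150.Full.T.Cell

variable {n : ℕ} {g : Edge n → ℝ} {A : Fin n → Fin n → ℝ} {δ : ℝ}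

/-- `P v` for `P = K + 5`. -/
noncomputable def pVec (g : Edge n → ℝ) (v : Fin n → ℝ) (i : Fin n) : ℝ := couple g v i + 5 * v i

/-- The bilinear form of `K + 5`. -/
noncomputable def pB (g : Edge n → ℝ) (a b : Fin n → ℝ) : ℝ := bil g a b + 5 * ∑ i, a i * b i

theorem pB_eq (g : Edge n → ℝ) (a b : Fin n → ℝ) : pB g a b = ∑ i, a i * pVec g b i := by
  simp only [pB, bil_couple, pVec, mul_add, Finset.sum_add_distrib, Finset.mul_sum]
  exact congrArg₂ (· + ·) rfl (Finset.sum_congr rfl fun i _ => by ring)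

/-- The step of the field given the signal `x` and the noise `z`. -/
noncomputable def etaOf (A : Fin n → Fin n → ℝ) (δ : ℝ) (x : Fin n → Bool) (z : Fin n → ℝ) (i : Fin n) : ℝ :=
  ∑ k, A i k * (δ * chDir A x k + √δ * z k)

/-- The components of `a` seen through `Aᵀ`. -/
noncomputable def adj (A : Fin n → Fin n → ℝ) (a : Fin n → ℝ) (k : Fin n) : ℝ := ∑ i, a i * A i k

theorem adj_dot {L : ℝ} (hA : IsRoot (skMat n 1 g) 5 L A) (a b : Fin n → ℝ) :
    ∑ k, adj A a k * adj A b k = pB g a b := by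
  calc ∑ k, adj A a k * adj A b k = ∑ k, ∑ i, ∑ j, a i * b j * (A i k * A j k) := by
        refine Finset.sum_congr rfl fun k _ => ?_
        rw [adj, adj, Finset.sum_mul_sum]
        exact Finset.sum_congr rfl fun i _ => Finset.sum_congr rfl fun j _ => by ring
    _ = ∑ i, ∑ j, a i * b j * ∑ k, A i k * A j k := by
        rw [Finset.sum_comm]
        refine Finset.sum_congr rfl fun i _ => ?_
        rw [Finset.sum_comm]
        exact Finset.sum_congr rfl fun j _ => by rw [Finset.mul_sum]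
    _ = _ := by
        simp only [hA.gram, mul_add, Finset.sum_add_distrib, mul_ite, mul_zero, Finset.sum_ite_eq,
          Finset.mem_univ, if_true, pB, bil, Finset.mul_sum]
        exact congrArg₂ (· + ·) (Finset.sum_congr rfl fun i _ => Finset.sum_congr rfl fun j _ => by ring)
          (Finset.sum_congr rfl fun i _ => by ring)

theorem chDir_eq_adj (A : Fin n → Fin n → ℝ) (x : Fin n → Bool) : chDir A x = adj A (spinv x) :=
  funext fun k => Finset.sum_congr rfl fun i _ => by rw [spinv]; ring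

theorem dot_etaOf {L : ℝ} (hA : IsRoot (skMat n 1 g) 5 L A) (δ : ℝ) (a : Fin n → ℝ) (x : Fin n → Bool)
    (z : Fin n → ℝ) :
    ∑ i, a i * etaOf A δ x z i = δ * pB g a (spinv x) + ∑ k, √δ * adj A a k * z k := by
  rw [← adj_dot hA, Finset.mul_sum, ← Finset.sum_add_distrib]
  calc ∑ i, a i * etaOf A δ x z i = ∑ k, ∑ i, a i * A i k * (δ * chDir A x k + √δ * z k) := by
        rw [Finset.sum_comm]
        refine Finset.sum_congr rfl fun i _ => ?_
        rw [etaOf, Finset.mul_sum]
        exact Finset.sum_congr rfl fun k _ => by ring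
    _ = _ := Finset.sum_congr rfl fun k _ => by
        rw [← Finset.sum_mul, chDir_eq_adj]
        simp only [adj]
        ring

/-- The mean of a linear function of the step. -/
theorem integral_dot_eta {L : ℝ} (hA : IsRoot (skMat n 1 g) 5 L A) (δ : ℝ) (a : Fin n → ℝ)
    (x : Fin n → Bool) :
    Integrable (fun z => ∑ i, a i * etaOf A δ x z i) (stdPi (Fin n)) ∧
      ∫ z, ∑ i, a i * etaOf A δ x z i ∂stdPi (Fin n) = δ * pB g a (spinv x) := by
  simp only [dot_etaOf hA]
  obtain ⟨h1, h2, -, -⟩ := stdPi_linear (fun k => √δ * adj A a k) (δ * pB g a (spinv x))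
  exact ⟨h1, h2⟩

/-- The mean of a product of two linear functions of the step. -/
theorem integral_dot_eta_two {L : ℝ} (hA : IsRoot (skMat n 1 g) 5 L A) (hδ : 0 ≤ δ) (a b : Fin n → ℝ)
    (x : Fin n → Bool) :
    Integrable (fun z => (∑ i, a i * etaOf A δ x z i) * ∑ i, b i * etaOf A δ x z i) (stdPi (Fin n)) ∧
      ∫ z, (∑ i, a i * etaOf A δ x z i) * ∑ i, b i * etaOf A δ x z i ∂stdPi (Fin n) =
        δ * (∑ k, adj A a k * adj A b k) + δ ^ 2 * (pB g a (spinv x) * pB g b (spinv x)) := by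
  simp only [dot_etaOf hA]
  set p := δ * pB g a (spinv x)
  set q := δ * pB g b (spinv x)
  obtain ⟨-, -, i1, s1⟩ := stdPi_linear (fun k => √δ * adj A a k + √δ * adj A b k) (p + q)
  obtain ⟨-, -, i2, s2⟩ := stdPi_linear (fun k => √δ * adj A a k - √δ * adj A b k) (p - q)
  have e : (fun z : Fin n → ℝ => (p + ∑ k, √δ * adj A a k * z k) * (q + ∑ k, √δ * adj A b k * z k)) =
      fun z => 1 / 4 * ((p + q + ∑ k, (√δ * adj A a k + √δ * adj A b k) * z k) ^ 2 -
        (p - q + ∑ k, (√δ * adj A a k - √δ * adj A b k) * z k) ^ 2) := funext fun z => by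
    simp only [add_mul, sub_mul, Finset.sum_add_distrib, Finset.sum_sub_distrib]
    ring
  rw [e]
  refine ⟨(i1.sub i2).const_mul _, ?_⟩
  rw [integral_const_mul, integral_sub i1 i2, s1, s2, add_sub_add_comm, ← Finset.sum_sub_distrib]
  have e2 : ∑ k, ((√δ * adj A a k + √δ * adj A b k) ^ 2 - (√δ * adj A a k - √δ * adj A b k) ^ 2) =
      4 * (δ * ∑ k, adj A a k * adj A b k) := by
    simp only [Finset.mul_sum]
    refine Finset.sum_congr rfl fun k _ => ?_
    linear_combination (4 * adj A a k * adj A b k) * Real.mul_self_sqrt hδ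
  rw [e2]
  ring

theorem adj_nrm_le {L : ℝ} (hA : IsRoot (skMat n 1 g) 5 L A) (hop : OpBound g 3) (a : Fin n → ℝ) :
    ∑ k, adj A a k ^ 2 ≤ 8 * ∑ i, a i ^ 2 := by
  have h := adj_dot hA a a
  simp only [← sq] at h
  rw [h, pB]
  have := (le_abs_self _).trans (hop a)
  simp only [← sq] at this ⊢
  linarith

theorem nrm_root_le {L : ℝ} (hA : IsRoot (skMat n 1 g) 5 L A) (hop : OpBound g 3) (z : Fin n → ℝ) :
    nrm (fun i => ∑ k, A i k * z k) ≤ 3 * nrm z := by
  set w : Fin n → ℝ := fun i => ∑ k, A i k * z k with hw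
  have e : ∑ i, w i * w i = ∑ k, adj A w k * z k := by
    calc ∑ i, w i * w i = ∑ i, ∑ k, w i * A i k * z k := Finset.sum_congr rfl fun i _ => by
          conv_lhs => rw [show w i * w i = w i * ∑ k, A i k * z k from rfl, Finset.mul_sum]
          exact Finset.sum_congr rfl fun k _ => by ring
      _ = _ := by
          rw [Finset.sum_comm]
          exact Finset.sum_congr rfl fun k _ => by rw [adj, Finset.sum_mul]
  have h1 : nrm (adj A w) ≤ 3 * nrm w := nrm_le_of_sq (mul_nonneg (by norm_num) (nrm_nonneg w)) (by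
    rw [mul_pow, nrm_sq]
    refine (adj_nrm_le hA hop w).trans (mul_le_mul_of_nonneg_right (by norm_num) ?_)
    exact Finset.sum_nonneg fun i _ => sq_nonneg _)
  have h2 : nrm w * nrm w ≤ nrm w * (3 * nrm z) := by
    rw [← sq, ← abs_sum_sq, e]
    refine ((le_abs_self _).trans (abs_sum_mul_le _ _)).trans ?_
    nlinarith [mul_le_mul_of_nonneg_right h1 (nrm_nonneg z)]
  rcases (nrm_nonneg w).eq_or_lt with h0 | h0
  · rw [← h0]; exact mul_nonneg (by norm_num) (nrm_nonneg z)
  · exact le_of_mul_le_mul_left h2 h0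

theorem nrm_pVec_le (hop : OpBound g 3) (v : Fin n → ℝ) : nrm (pVec g v) ≤ 8 * nrm v := by
  refine (nrm_add_le (couple g v) fun i => 5 * v i).trans ?_
  have h := nrm_smul_le (a := v) (c := 5) (C := 5) (by norm_num)
  linarith [nrm_couple_le hop v]

theorem nrm_spinv (x : Fin n → Bool) : nrm (spinv x) ≤ √n :=
  nrm_cube fun i => by rcases spin_cases (x i) with h | h <;> simp [spinv, h]

theorem etaOf_eq {L : ℝ} (hA : IsRoot (skMat n 1 g) 5 L A) (δ : ℝ) (x : Fin n → Bool) (z : Fin n → ℝ)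
    (i : Fin n) : etaOf A δ x z i = δ * pVec g (spinv x) i + √δ * ∑ k, A i k * z k := by
  have h := dot_etaOf hA δ (Pi.single i 1) x z
  rw [pB_eq] at h
  simp only [Pi.single_apply, ite_mul, one_mul, zero_mul, Finset.sum_ite_eq', Finset.mem_univ, if_true] at h
  rw [h, Finset.mul_sum]
  refine congrArg₂ (· + ·) rfl (Finset.sum_congr rfl fun k _ => ?_)
  simp [adj, Pi.single_apply, mul_assoc]

/-- The size of a step in terms of the noise. -/
theorem stepSize_eta_le {L : ℝ} (hA : IsRoot (skMat n 1 g) 5 L A) (hop : OpBound g 3) (hδ0 : 0 ≤ δ)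
    (hδ1 : δ ≤ 1) (x : Fin n → Bool) (z : Fin n → ℝ) :
    stepSize δ (etaOf A δ x z) ≤ √δ * (9 * √n + 3 * nrm z) := by
  have hd : δ ≤ √δ := Real.le_sqrt_of_sq_le (pow_le_of_le_one hδ0 hδ1 two_ne_zero)
  have e : etaOf A δ x z = fun i => δ * pVec g (spinv x) i + √δ * ∑ k, A i k * z k :=
    funext (etaOf_eq hA δ x z)
  rw [stepSize, e]
  have h1 := (nrm_smul_le (a := pVec g (spinv x)) (C := δ) (abs_of_nonneg hδ0).le).trans
    (mul_le_mul_of_nonneg_left ((nrm_pVec_le hop _).trans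
      (mul_le_mul_of_nonneg_left (nrm_spinv x) (by norm_num))) hδ0)
  have h2 := (nrm_smul_le (a := fun i => ∑ k, A i k * z k) (C := √δ)
    (abs_of_nonneg (Real.sqrt_nonneg δ)).le).trans
    (mul_le_mul_of_nonneg_left (nrm_root_le hA hop z) (Real.sqrt_nonneg δ))
  have h3 := nrm_add_le (fun i => δ * pVec g (spinv x) i) (fun i => √δ * ∑ k, A i k * z k)
  nlinarith [mul_le_mul_of_nonneg_right hd (Real.sqrt_nonneg (n : ℝ))]

/-- The dominating function of the remainders. -/
noncomputable def remFun (z : Fin n → ℝ) : ℝ := 70000 * (n : ℝ) ^ 2 + 800 * (n * ∑ k, z k ^ 4)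

theorem remFun_integrable : Integrable (remFun (n := n)) (stdPi (Fin n)) := by
  refine (integrable_const _).fun_add (Integrable.const_mul (Integrable.const_mul
    (integrable_finsetSum _ fun k _ => ?_) _) _)
  exact (measurePreserving_coord k).integrable_comp_of_integrable (integrable_pow_std 4)

theorem integral_remFun : ∫ z, remFun z ∂stdPi (Fin n) = 72400 * (n : ℝ) ^ 2 := by
  have h4 : ∀ k : Fin n, Integrable (fun z : Fin n → ℝ => z k ^ 4) (stdPi (Fin n)) := fun k =>
    (measurePreserving_coord k).integrable_comp_of_integrable (integrable_pow_std 4)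
  have e4 : ∀ k : Fin n, ∫ z, z k ^ 4 ∂stdPi (Fin n) = 3 := fun k => by
    rw [integral_coord k (φ := fun x => x ^ 4) (integrable_pow_std 4).1, moment_succ 2, moment_succ 0]
    norm_num [std]
  simp only [remFun]
  rw [integral_add (integrable_const _) (((integrable_finsetSum _ fun k _ => h4 k).const_mul _).const_mul _),
    integral_const_mul, integral_const_mul, integral_const_mul, integral_finsetSum _ fun k _ => h4 k]
  simp [e4]
  ring

/-- The remainders are of order `δ^(3/2)`. -/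
theorem rem_eta_le {L : ℝ} (hA : IsRoot (skMat n 1 g) 5 L A) (hop : OpBound g 3) (hn : 0 < n)
    (hδ0 : 0 ≤ δ) (hδ1 : δ ≤ 1) (x : Fin n → Bool) (z : Fin n → ℝ) :
    stepSize δ (etaOf A δ x z) ^ 3 + δ * stepSize δ (etaOf A δ x z) ≤ δ * √δ * remFun z := by
  set Z := 9 * √n + 3 * nrm z with hZ
  have hZ0 : 0 ≤ Z := by linarith [Real.sqrt_nonneg (n : ℝ), nrm_nonneg z]
  have hs0 : 0 ≤ stepSize δ (etaOf A δ x z) := add_nonneg (nrm_nonneg _) (by positivity)
  have h := stepSize_eta_le hA hop hδ0 hδ1 x z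
  have h1 : stepSize δ (etaOf A δ x z) ^ 3 ≤ δ * √δ * Z ^ 3 := by
    refine (pow_le_pow_left₀ hs0 h 3).trans (le_of_eq ?_)
    rw [← hZ]
    linear_combination (√δ * Z ^ 3) * Real.mul_self_sqrt hδ0
  have h2 : δ * stepSize δ (etaOf A δ x z) ≤ δ * √δ * Z :=
    (mul_le_mul_of_nonneg_left h hδ0).trans_eq (by ring)
  have hn1 : (1 : ℝ) ≤ n := by exact_mod_cast hn
  have h3 : Z ^ 3 + Z ≤ remFun z := by
    have a : Z ^ 3 + Z ≤ (1 + Z ^ 2) ^ 2 := by
      nlinarith [sq_nonneg (Z - 1), mul_nonneg (sq_nonneg Z) (sq_nonneg (Z - 1)), sq_nonneg Z]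
    have b : Z ^ 2 ≤ 162 * n + 18 * ∑ k, z k ^ 2 := by
      rw [← nrm_sq, hZ]
      nlinarith [sq_nonneg (9 * √n - 3 * nrm z), Real.mul_self_sqrt (n.cast_nonneg (α := ℝ))]
    have c := Finset.sum_mul_sq_le_sq_mul_sq univ (fun _ : Fin n => (1 : ℝ)) (fun k => z k ^ 2)
    simp only [one_mul, one_pow, Finset.sum_const, Finset.card_univ, Fintype.card_fin, nsmul_eq_mul,
      mul_one, ← pow_mul] at c
    have d : (1 + Z ^ 2) ^ 2 ≤ (163 * n + 18 * ∑ k, z k ^ 2) ^ 2 :=
      pow_le_pow_left₀ (by positivity) (by linarith) 2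
    rw [remFun]
    nlinarith [sq_nonneg (163 * n - 18 * ∑ k, z k ^ 2), sq_nonneg (n : ℝ)]
  calc _ ≤ δ * √δ * (Z ^ 3 + Z) := by linarith
    _ ≤ _ := mul_le_mul_of_nonneg_left h3 (mul_nonneg hδ0 (Real.sqrt_nonneg δ))

end Vale.Agent.P150.Full.T.Cell
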