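import Vale.Agent.P150.Full.T.Cell.Moments

/-!
# P150 no traps, N4: expectations of quadratic functions of `F η`
-/

open Finset MeasureTheory Real Matrix
open Vale.Agent.P150.Fast
open Vale.Agent.P150.Beyond Vale.Agent.P150.Beyond.Stability

namespace Vale.Agent.P150.Full.T.Cell

variable {n : ℕ} {θ r γ δ : ℝ} {g : Edge n → ℝ} {A : Fin n → Fin n → ℝ} {m₀ x : Fin n → ℝ}

theorem sol_dot (P : PosPoint θ γ r g m₀ x) (a w : Fin n → ℝ) :
    ∑ i, a i * sol θ g m₀ r x w i = ∑ i, sol θ g m₀ r x a i * w i := by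
  have hs := (hessCMat_isSymm θ g m₀ r x).eq
  calc ∑ i, a i * sol θ g m₀ r x w i
      = (hessCMat θ g m₀ r x *ᵥ sol θ g m₀ r x a) ⬝ᵥ sol θ g m₀ r x w := by rw [sol_spec P]; rfl
    _ = sol θ g m₀ r x a ⬝ᵥ (hessCMat θ g m₀ r x *ᵥ sol θ g m₀ r x w) := by
        rw [dotProduct_comm, Matrix.dotProduct_mulVec, ← Matrix.mulVec_transpose, hs, dotProduct_comm]
    _ = _ := by rw [sol_spec P]; rfl

theorem sol_apply (P : PosPoint θ γ r g m₀ x) (w : Fin n → ℝ) (i : Fin n) :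
    sol θ g m₀ r x w i = ∑ j, sol θ g m₀ r x (Pi.single i 1) j * w j := by
  rw [← sol_dot P]
  simp [Pi.single_apply]

/-- The image of a column of `A`. -/
noncomputable def fA (θ : ℝ) (g : Edge n → ℝ) (m₀ : Fin n → ℝ) (r : ℝ) (x : Fin n → ℝ)
    (A : Fin n → Fin n → ℝ) (k : Fin n) : Fin n → ℝ :=
  sol θ g m₀ r x fun i => A i k

theorem adj_sol (P : PosPoint θ γ r g m₀ x) (A : Fin n → Fin n → ℝ) (a : Fin n → ℝ) (k : Fin n) :
    adj A (sol θ g m₀ r x a) k = ∑ i, a i * fA θ g m₀ r x A k i := by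
  rw [fA, sol_dot P]; rfl

/-- `Q` integrates against `F η` like a quadratic form. -/
def IsQuad (θ : ℝ) (g : Edge n → ℝ) (m₀ : Fin n → ℝ) (r : ℝ) (x : Fin n → ℝ) (A : Fin n → Fin n → ℝ)
    (δ : ℝ) (s : Fin n → Bool) (Q : (Fin n → ℝ) → ℝ) : Prop :=
  Integrable (fun z => Q (sol θ g m₀ r x (etaOf A δ s z))) (stdPi (Fin n)) ∧
    ∫ z, Q (sol θ g m₀ r x (etaOf A δ s z)) ∂stdPi (Fin n) =
      δ * (∑ k, Q (fA θ g m₀ r x A k)) + δ ^ 2 * Q (sol θ g m₀ r x (pVec g (spinv s)))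

variable {s : Fin n → Bool}

theorem isQuad_prod (P : PosPoint θ γ r g m₀ x) {L : ℝ} (hA : IsRoot (skMat n 1 g) 5 L A) (hδ : 0 ≤ δ)
    (c d : Fin n → ℝ) :
    IsQuad θ g m₀ r x A δ s fun a => (∑ i, c i * a i) * ∑ i, d i * a i := by
  simp only [IsQuad, sol_dot P]
  obtain ⟨h1, h2⟩ := integral_dot_eta_two hA hδ (sol θ g m₀ r x c) (sol θ g m₀ r x d) s
  refine ⟨h1, h2.trans ?_⟩
  congr 1
  · congr 1
    refine Finset.sum_congr rfl fun k _ => ?_
    rw [adj_sol P, adj_sol P]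
  · rw [pB_eq, pB_eq]

theorem IsQuad.add {P Q : (Fin n → ℝ) → ℝ} (hP : IsQuad θ g m₀ r x A δ s P)
    (hQ : IsQuad θ g m₀ r x A δ s Q) : IsQuad θ g m₀ r x A δ s fun a => P a + Q a := by
  refine ⟨hP.1.fun_add hQ.1, ?_⟩
  rw [integral_add hP.1 hQ.1, hP.2, hQ.2, Finset.sum_add_distrib]
  ring

theorem IsQuad.const_mul {Q : (Fin n → ℝ) → ℝ} (c : ℝ) (hQ : IsQuad θ g m₀ r x A δ s Q) :
    IsQuad θ g m₀ r x A δ s fun a => c * Q a := by
  refine ⟨hQ.1.const_mul c, ?_⟩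
  rw [integral_const_mul, hQ.2, ← Finset.mul_sum]
  ring

theorem IsQuad.sum {ι : Type*} (t : Finset ι) {Q : ι → (Fin n → ℝ) → ℝ}
    (hQ : ∀ j ∈ t, IsQuad θ g m₀ r x A δ s (Q j)) :
    IsQuad θ g m₀ r x A δ s fun a => ∑ j ∈ t, Q j a := by
  refine ⟨integrable_finsetSum _ fun j hj => (hQ j hj).1, ?_⟩
  rw [integral_finsetSum _ fun j hj => (hQ j hj).1, Finset.sum_congr rfl fun j hj => (hQ j hj).2,
    Finset.sum_add_distrib, ← Finset.mul_sum, ← Finset.mul_sum, Finset.sum_comm]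

theorem IsQuad.congr {P Q : (Fin n → ℝ) → ℝ} (hP : IsQuad θ g m₀ r x A δ s P) (h : ∀ a, Q a = P a) :
    IsQuad θ g m₀ r x A δ s Q := by rwa [funext h]

/-- The quadratic part of a step. -/
noncomputable def quadVec (θ : ℝ) (m₀ : Fin n → ℝ) (r : ℝ) (x a : Fin n → ℝ) (i : Fin n) : ℝ :=
  x i * (a i / (1 - x i ^ 2)) ^ 2 + nl2 θ m₀ r x a a i / 2

theorem isQuad_quadVec (P : PosPoint θ γ r g m₀ x) {L : ℝ} (hA : IsRoot (skMat n 1 g) 5 L A) (hδ : 0 ≤ δ)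
    (i : Fin n) : IsQuad θ g m₀ r x A δ s fun a => quadVec θ m₀ r x a i := by
  set e : Fin n → ℝ := Pi.single i 1
  set w : Fin n → ℝ := fun j => x j - m₀ j
  have he : ∀ a : Fin n → ℝ, ∑ j, e j * a j = a i := fun a => by simp [e, Pi.single_apply]
  have h1 := isQuad_prod (s := s) P hA hδ e e
  have h2 := IsQuad.sum (θ := θ) (r := r) (g := g) (m₀ := m₀) (x := x) (A := A) (δ := δ) (s := s) univ
    (Q := fun j a => (∑ l, (Pi.single j 1 : Fin n → ℝ) l * a l) * ∑ l, (Pi.single j 1 : Fin n → ℝ) l * a l)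
    fun j _ => isQuad_prod P hA hδ _ _
  have h3 := isQuad_prod (s := s) P hA hδ x e
  have h4 := isQuad_prod (s := s) P hA hδ w w
  have h5 := isQuad_prod (s := s) P hA hδ w e
  refine ((((h1.const_mul (x i / (1 - x i ^ 2) ^ 2)).add
    (h2.const_mul (-(θ ^ 2 / n) * x i + 2 / n * chi2 r (dist2 m₀ x) * w i))).add
    (h3.const_mul (-(2 * θ ^ 2 / n)))).add
    ((h4.const_mul (4 / (n : ℝ) ^ 2 * chi3 r (dist2 m₀ x) * w i)).add
      (h5.const_mul (4 / n * chi2 r (dist2 m₀ x))))).congr fun a => ?_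
  have e2 : ∑ j, (∑ l, (Pi.single j 1 : Fin n → ℝ) l * a l) * ∑ l, (Pi.single j 1 : Fin n → ℝ) l * a l =
      ∑ j, a j * a j := Finset.sum_congr rfl fun j _ => by simp [Pi.single_apply]
  simp only [he, e2, quadVec, nl2, w, div_pow]
  ring

theorem quadVec_le (P : PosPoint θ γ r g m₀ x) (w : Fin n → ℝ) :
    nrm (quadVec θ m₀ r x (sol θ g m₀ r x w)) ≤ (1 + lipC r) * (solC r γ * nrm w) ^ 2 := by
  set a := sol θ g m₀ r x w
  have hv := sol_bound_div P w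
  set v : Fin n → ℝ := fun i => a i / (1 - x i ^ 2)
  have ha : nrm a ≤ nrm v := nrm_mono fun i => by
    rw [abs_div, abs_of_pos (P.dpos i)]
    exact le_div_self (abs_nonneg _) (P.dpos i) (sub_le_self _ (sq_nonneg (x i)))
  have hb := mul_nonneg (zero_le_one.trans (solC_one_le (r := r) P.γpos)) (nrm_nonneg w)
  have hsq : nrm v * nrm v ≤ (solC r γ * nrm w) ^ 2 := by
    rw [sq]; exact mul_le_mul hv hv (nrm_nonneg _) hb
  have k1 : nrm (fun i => x i * (v i * v i)) ≤ (solC r γ * nrm w) ^ 2 := by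
    refine (nrm_mono (b := fun i => v i * v i) fun i => ?_).trans ((nrm_mul_le v v).trans hsq)
    rw [abs_mul]
    exact mul_le_of_le_one_left (abs_nonneg _) (P.abs_le i)
  have k2 : nrm (fun i => nl2 θ m₀ r x a a i / 2) ≤ lipC r * (solC r γ * nrm w) ^ 2 := by
    refine (nrm_mono (b := nl2 θ m₀ r x a a) fun i => ?_).trans ((nl2_le P.pos P.θnonneg P.θle P.abs_le
      P.centre a a).trans ?_)
    · rw [abs_div, abs_two]; linarith [abs_nonneg (nl2 θ m₀ r x a a i)]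
    · rw [mul_assoc]
      exact mul_le_mul_of_nonneg_left ((mul_le_mul ha ha (nrm_nonneg _) (nrm_nonneg _)).trans hsq)
        (lipC_pos r).le
  have e : quadVec θ m₀ r x a = fun i => x i * (v i * v i) + nl2 θ m₀ r x a a i / 2 :=
    funext fun i => by rw [quadVec, sq]
  rw [e]
  exact (nrm_add_le _ _).trans ((add_le_add k1 k2).trans_eq (by ring))

end Vale.Agent.P150.Full.T.Cell
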