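import Vale.Agent.P150.Full.T.Cell.Basic

/-!
# P150 no traps, N4: one-variable facts

Taylor bounds with cubic remainder, the parametrisation `x = tanh h` of the open interval, and two
moduli of continuity.
-/

open Finset Real
open Vale.Agent.P150.Fast
open Vale.Agent.P150.Beyond Vale.Agent.P150.Beyond.Stability

namespace Vale.Agent.P150.Full.T.Cell

/-- A function with small derivative changes little. -/
theorem abs_sub_le_of_deriv {f f1 : ℝ → ℝ} {a b C : ℝ}
    (h : ∀ t ∈ Set.uIcc a b, HasDerivAt f (f1 t) t) (hC : ∀ t ∈ Set.uIcc a b, |f1 t| ≤ C) :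
    |f b - f a| ≤ C * |b - a| :=
  (convex_uIcc a b).norm_image_sub_le_of_norm_hasDerivWithin_le
    (fun t ht => (h t ht).hasDerivWithinAt) (fun t ht => hC t ht) Set.left_mem_uIcc Set.right_mem_uIcc

/-- Second order Taylor expansion along a segment. -/
theorem taylor_three {f f1 f2 f3 : ℝ → ℝ} {v M : ℝ}
    (h1 : ∀ t ∈ Set.uIcc 0 v, HasDerivAt f (f1 t) t) (h2 : ∀ t ∈ Set.uIcc 0 v, HasDerivAt f1 (f2 t) t)
    (h3 : ∀ t ∈ Set.uIcc 0 v, HasDerivAt f2 (f3 t) t) (hM : ∀ t ∈ Set.uIcc 0 v, |f3 t| ≤ M) :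
    |f v - f 0 - v * f1 0 - v ^ 2 / 2 * f2 0| ≤ M * |v| ^ 3 := by
  have hM0 : 0 ≤ M := (abs_nonneg _).trans (hM 0 Set.left_mem_uIcc)
  have hsub : ∀ t ∈ Set.uIcc 0 v, Set.uIcc 0 t ⊆ Set.uIcc 0 v := fun t ht =>
    Set.uIcc_subset_uIcc Set.left_mem_uIcc ht
  have habs : ∀ t ∈ Set.uIcc 0 v, |t - 0| ≤ |v| := fun t ht => by
    rw [sub_zero]
    rcases Set.mem_uIcc.1 ht with h | h
    · exact (abs_of_nonneg h.1).trans_le (h.2.trans (le_abs_self v))
    · exact (abs_of_nonpos h.2).trans_le ((neg_le_neg h.1).trans (neg_le_abs v))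
  have e2 : ∀ t ∈ Set.uIcc 0 v, |f2 t - f2 0| ≤ M * |v| := fun t ht =>
    (abs_sub_le_of_deriv (fun s hs => h3 s (hsub t ht hs)) fun s hs => hM s (hsub t ht hs)).trans
      (mul_le_mul_of_nonneg_left (habs t ht) hM0)
  have e1 : ∀ t ∈ Set.uIcc 0 v, |f1 t - f1 0 - t * f2 0| ≤ M * |v| * |v| := fun t ht => by
    have h := abs_sub_le_of_deriv (f := fun s => f1 s - s * f2 0) (f1 := fun s => f2 s - f2 0)
      (fun s hs => ((h2 s (hsub t ht hs)).sub ((hasDerivAt_id s).mul_const (f2 0))).congr_deriv (by ring))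
      fun s hs => e2 s (hsub t ht hs)
    rw [zero_mul, sub_zero] at h
    rw [sub_right_comm]
    exact h.trans (mul_le_mul_of_nonneg_left (habs t ht) (by positivity))
  have h := abs_sub_le_of_deriv (f := fun s => f s - s * f1 0 - s ^ 2 / 2 * f2 0)
    (f1 := fun s => f1 s - f1 0 - s * f2 0) (a := 0) (b := v)
    (fun s hs => (((h1 s hs).sub ((hasDerivAt_id s).mul_const (f1 0))).sub
      (((hasDerivAt_pow 2 s).div_const 2).mul_const (f2 0))).congr_deriv (by simp))
    fun s hs => e1 s hs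
  simp only [zero_mul, sub_zero, ne_eq, OfNat.ofNat_ne_zero, not_false_eq_true, zero_pow, zero_div] at h
  rw [show f v - f 0 - v * f1 0 - v ^ 2 / 2 * f2 0 = f v - v * f1 0 - v ^ 2 / 2 * f2 0 - f 0 by ring]
  exact h.trans (le_of_eq (by ring))

theorem hasDerivAt_tanh (x : ℝ) : HasDerivAt Real.tanh (1 - Real.tanh x ^ 2) x := by
  have e : Real.tanh = fun y => Real.sinh y / Real.cosh y := funext Real.tanh_eq_sinh_div_cosh
  rw [e]
  refine ((Real.hasDerivAt_sinh x).div (Real.hasDerivAt_cosh x) (Real.cosh_pos x).ne').congr_deriv ?_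
  field_simp [(Real.cosh_pos x).ne']

theorem tanh_sq_lt (x : ℝ) : Real.tanh x ^ 2 < 1 :=
  (sq_lt_one_iff_abs_lt_one _).2 (Real.abs_tanh_lt_one x)

theorem tanh_slope {x : ℝ} (hx : |x| < 1) : Real.tanh (Stability.slope x) = x := by
  obtain ⟨h1, h2⟩ := abs_lt.1 hx
  have h := Real.tanh_artanh (x := x) ⟨h1, h2⟩
  rwa [Real.artanh_eq_half_log ⟨h1.le, h2.le⟩, Real.log_div (by linarith) (by linarith),
    show 1 / 2 * (Real.log (1 + x) - Real.log (1 - x)) = Stability.slope x by
      rw [Stability.slope]; ring] at h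

theorem slope_tanh (a : ℝ) : Stability.slope (Real.tanh a) = a :=
  Real.tanh_injective (tanh_slope (Real.abs_tanh_lt_one a))

/-- `tanh` to second order. -/
theorem tanh_taylor (a v : ℝ) :
    |Real.tanh (a + v) - Real.tanh a - (1 - Real.tanh a ^ 2) * v
      + Real.tanh a * (1 - Real.tanh a ^ 2) * v ^ 2| ≤ 6 * |v| ^ 3 := by
  have hd : ∀ t, HasDerivAt (fun t => Real.tanh (a + t)) (1 - Real.tanh (a + t) ^ 2) t := fun t =>
    (hasDerivAt_tanh (a + t)).comp_const_add a t
  have h := taylor_three (f := fun t => Real.tanh (a + t)) (v := v) (M := 6)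
    (f1 := fun t => 1 - Real.tanh (a + t) ^ 2)
    (f2 := fun t => -(2 * Real.tanh (a + t) * (1 - Real.tanh (a + t) ^ 2)))
    (f3 := fun t => -(2 * (1 - Real.tanh (a + t) ^ 2) * (1 - 3 * Real.tanh (a + t) ^ 2)))
    (fun t _ => hd t) (fun t _ => (((hd t).pow 2).const_sub 1).congr_deriv (by simp))
    (fun t _ => ((((hd t).const_mul 2).mul (((hd t).pow 2).const_sub 1)).neg).congr_deriv (by simp; ring))
    fun t _ => by
      have h1 := tanh_sq_lt (a + t)
      have h0 := sq_nonneg (Real.tanh (a + t))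
      rw [abs_le]
      constructor <;> nlinarith [mul_nonneg h0 (sub_nonneg.2 h1.le)]
  simp only [add_zero] at h
  refine le_trans (le_of_eq ?_) h
  congr 1
  ring

/-- The Bregman divergence of the entropy in the parametrisation `x = tanh a`, from above. -/
theorem binEnt_tanh_le (a v : ℝ) :
    binEnt (Real.tanh (a + v)) - binEnt (Real.tanh a) - a * (Real.tanh (a + v) - Real.tanh a)
      ≤ (1 - Real.tanh a ^ 2) * v ^ 2 / 2 + 2 * |v| ^ 3 := by
  have hd : ∀ t, HasDerivAt (fun t => Real.tanh (a + t)) (1 - Real.tanh (a + t) ^ 2) t := fun t =>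
    (hasDerivAt_tanh (a + t)).comp_const_add a t
  set D := 1 - Real.tanh a ^ 2 with hD
  have hψ : ∀ t, HasDerivAt
      (fun t => binEnt (Real.tanh (a + t)) - a * Real.tanh (a + t) - D * t ^ 2 / 2)
      (t * ((1 - Real.tanh (a + t) ^ 2) - D)) t := fun t => by
    refine ((((hasDerivAt_binEnt (Real.abs_tanh_lt_one (a + t))).comp t (hd t)).sub
      ((hd t).const_mul a)).sub (((hasDerivAt_pow 2 t).const_mul D).div_const 2)).congr_deriv ?_
    rw [slope_tanh]
    simp; ring
  have hlip : ∀ t, |(1 - Real.tanh (a + t) ^ 2) - D| ≤ 2 * |t| := fun t => by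
    have h := abs_sub_le_of_deriv (f := fun t => 1 - Real.tanh (a + t) ^ 2)
      (f1 := fun t => -(2 * Real.tanh (a + t) * (1 - Real.tanh (a + t) ^ 2))) (a := 0) (b := t) (C := 2)
      (fun s _ => ((((hd s).pow 2)).const_sub 1).congr_deriv (by simp)) fun s _ => by
        obtain ⟨k1, k2⟩ := abs_lt.1 (Real.abs_tanh_lt_one (a + s))
        have h1 := tanh_sq_lt (a + s)
        rw [abs_le]
        constructor <;> nlinarith [sq_nonneg (Real.tanh (a + s))]
    simpa [hD] using h
  have h := abs_sub_le_of_deriv (a := 0) (b := v) (C := 2 * |v| * |v|)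
    (f := fun t => binEnt (Real.tanh (a + t)) - a * Real.tanh (a + t) - D * t ^ 2 / 2)
    (fun t _ => hψ t) fun t ht => by
      have ht' : |t| ≤ |v| := by
        rcases Set.mem_uIcc.1 ht with h | h
        · exact (abs_of_nonneg h.1).trans_le (h.2.trans (le_abs_self v))
        · exact (abs_of_nonpos h.2).trans_le ((neg_le_neg h.1).trans (neg_le_abs v))
      rw [abs_mul]
      calc |t| * |(1 - Real.tanh (a + t) ^ 2) - D| ≤ |v| * (2 * |v|) :=
            mul_le_mul ht' ((hlip t).trans (mul_le_mul_of_nonneg_left ht' zero_le_two))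
              (abs_nonneg _) (abs_nonneg _)
        _ = 2 * |v| * |v| := by ring
  simp only [sub_zero, add_zero, ne_eq, OfNat.ofNat_ne_zero, not_false_eq_true, zero_pow, mul_zero,
    zero_div] at h
  have e : 2 * |v| * |v| * |v| = 2 * |v| ^ 3 := by ring
  linarith [(abs_le.1 h).2]

/-- The entropy is uniformly continuous, in linear form. -/
theorem binEnt_modulus {ε : ℝ} (hε : 0 < ε) : ∃ C : ℝ, 0 < C ∧
    ∀ a b : ℝ, |a| ≤ 1 → |b| ≤ 1 → |binEnt a - binEnt b| ≤ ε + C * |a - b| := by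
  obtain ⟨δ, hδ, h⟩ := Metric.uniformContinuousOn_iff.1
    (isCompact_Icc.uniformContinuousOn_of_continuous (s := Set.Icc (-1 : ℝ) 1)
      continuous_binEnt.continuousOn) ε hε
  obtain ⟨B, hB⟩ := (isCompact_Icc (a := (-1 : ℝ)) (b := 1)).exists_bound_of_continuousOn
    continuous_binEnt.continuousOn
  refine ⟨2 * |B| / δ + 1, by positivity, fun a b ha hb => ?_⟩
  have hC : 0 ≤ (2 * |B| / δ + 1) * |a - b| := by positivity
  rcases lt_or_ge |a - b| δ with hd | hd
  · have := h a (abs_le.1 ha) b (abs_le.1 hb) (by rwa [Real.dist_eq])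
    rw [Real.dist_eq] at this
    linarith
  · have h1 := abs_sub (binEnt a) (binEnt b)
    have h2 : |binEnt a| ≤ |B| := ((hB a (abs_le.1 ha)).trans (le_abs_self B))
    have h3 : |binEnt b| ≤ |B| := ((hB b (abs_le.1 hb)).trans (le_abs_self B))
    have h4 : 2 * |B| ≤ 2 * |B| / δ * |a - b| := by
      rw [div_mul_eq_mul_div, le_div_iff₀ hδ]
      exact mul_le_mul_of_nonneg_left hd (by positivity)
    nlinarith

end Vale.Agent.P150.Full.T.Cell
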