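import Vale.Agent.P150.Full.T.Cell.Line

/-!
# P150 no traps, N4: the inverse Hessian of the cell free energy

At a point where the Hessian `diag (1 / (1 - x²)) + nl1` is at least `γ`, its inverse `sol` is
bounded, also after scaling by `1 - x²` on either side.
-/

open Finset Real Matrix
open Vale.Agent.P150.Fast
open Vale.Agent.P150.Beyond Vale.Agent.P150.Beyond.Stability

namespace Vale.Agent.P150.Full.T.Cell

variable {n : ℕ} {θ r γ : ℝ} {g : Edge n → ℝ} {m₀ x u w : Fin n → ℝ}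

/-- A point at which the convexified Hessian is at least `γ`. -/
structure PosPoint (θ γ r : ℝ) (g : Edge n → ℝ) (m₀ x : Fin n → ℝ) : Prop where
  pos : 0 < n
  γpos : 0 < γ
  θnonneg : 0 ≤ θ
  θle : θ ≤ 1
  centre : ∀ i, |m₀ i| ≤ 1
  op : OpBound g 3
  mem : ∀ i, |x i| < 1
  hess : ∀ v, γ * ∑ i, v i ^ 2 ≤ hessC θ g m₀ r x v

/-- The Hessian of the cell free energy as a matrix. -/
noncomputable def hessCMat (θ : ℝ) (g : Edge n → ℝ) (m₀ : Fin n → ℝ) (r : ℝ) (x : Fin n → ℝ) :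
    Matrix (Fin n) (Fin n) ℝ :=
  hessMat θ g x + (2 * chi1 r (dist2 m₀ x)) • 1 +
    (4 / n * chi2 r (dist2 m₀ x)) • Matrix.vecMulVec (fun i => x i - m₀ i) (fun i => x i - m₀ i)

/-- Its inverse, applied to a vector. -/
noncomputable def sol (θ : ℝ) (g : Edge n → ℝ) (m₀ : Fin n → ℝ) (r : ℝ) (x w : Fin n → ℝ) : Fin n → ℝ :=
  (hessCMat θ g m₀ r x)⁻¹ *ᵥ w

theorem coupMat_mulVec (g : Edge n → ℝ) (u : Fin n → ℝ) : coupMat g *ᵥ u = couple g u := rfl

theorem hessCMat_mulVec (θ : ℝ) (g : Edge n → ℝ) (m₀ : Fin n → ℝ) (r : ℝ) (x u : Fin n → ℝ)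
    (i : Fin n) :
    (hessCMat θ g m₀ r x *ᵥ u) i = u i / (1 - x i ^ 2) + nl1 θ g m₀ r x u i := by
  simp only [hessCMat, hessMat, Matrix.add_mulVec, Matrix.sub_mulVec, Matrix.smul_mulVec,
    Matrix.one_mulVec, Matrix.vecMulVec_mulVec, Matrix.mulVec_diagonal, coupMat_mulVec, Pi.add_apply,
    Pi.sub_apply, Pi.smul_apply, MulOpposite.smul_eq_mul_unop, MulOpposite.unop_op, smul_eq_mul, nl1,
    dotProduct]
  ring

theorem dot_hessCMat (θ : ℝ) (g : Edge n → ℝ) (m₀ : Fin n → ℝ) (r : ℝ) (x u : Fin n → ℝ) :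
    ∑ i, u i * (hessCMat θ g m₀ r x *ᵥ u) i = hessC θ g m₀ r x u := by
  simp only [hessCMat_mulVec, mul_add, Finset.sum_add_distrib, hessC, nlB_eq]
  exact congrArg (· + _) (Finset.sum_congr rfl fun i _ => by ring)

theorem hessCMat_isSymm (θ : ℝ) (g : Edge n → ℝ) (m₀ : Fin n → ℝ) (r : ℝ) (x : Fin n → ℝ) :
    (hessCMat θ g m₀ r x).IsSymm := by
  refine Matrix.IsSymm.ext fun i j => ?_
  simp only [hessCMat, hessMat, coupMat, Matrix.add_apply, Matrix.sub_apply, Matrix.smul_apply,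
    Matrix.of_apply, Matrix.vecMulVec_apply, smul_eq_mul, (isCoupling_skMat n 1 g).1 i j]
  rcases eq_or_ne i j with rfl | h
  · rfl
  · simp [Matrix.one_apply_ne h, Matrix.one_apply_ne h.symm, Matrix.diagonal_apply_ne _ h,
      Matrix.diagonal_apply_ne _ h.symm]
    ring

/-- Inside radius `3 r` the penalty is invisible. -/
theorem hessCMat_inside (h : dist2 m₀ x ≤ 9 * r ^ 2) : hessCMat θ g m₀ r x = hessMat θ g x := by
  obtain ⟨-, h1, h2, -⟩ := chi_eq_zero h
  simp [hessCMat, h1, h2]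

theorem PosPoint.inj (P : PosPoint θ γ r g m₀ x) :
    Function.Injective (hessCMat θ g m₀ r x).mulVec := fun a b hab => by
  have h0 : hessCMat θ g m₀ r x *ᵥ (a - b) = 0 := by rw [Matrix.mulVec_sub, sub_eq_zero]; exact hab
  have h := P.hess (a - b)
  rw [← dot_hessCMat, h0] at h
  simp only [Pi.zero_apply, mul_zero, Finset.sum_const_zero] at h
  have hz : ∑ i, (a - b) i ^ 2 = 0 := le_antisymm (nonpos_of_mul_nonpos_right h P.γpos)
    (Finset.sum_nonneg fun i _ => sq_nonneg _)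
  funext i
  have := (Finset.sum_eq_zero_iff_of_nonneg fun i _ => sq_nonneg _).1 hz i (Finset.mem_univ i)
  simpa [sub_eq_zero] using this

theorem PosPoint.isUnit (P : PosPoint θ γ r g m₀ x) : IsUnit (hessCMat θ g m₀ r x).det :=
  (Matrix.isUnit_iff_isUnit_det _).1 (Matrix.mulVec_injective_iff_isUnit.1 P.inj)

theorem sol_spec (P : PosPoint θ γ r g m₀ x) (w : Fin n → ℝ) :
    hessCMat θ g m₀ r x *ᵥ sol θ g m₀ r x w = w := by
  rw [sol, Matrix.mulVec_mulVec, Matrix.mul_nonsing_inv _ P.isUnit, Matrix.one_mulVec]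

theorem sol_eq (P : PosPoint θ γ r g m₀ x) (h : hessCMat θ g m₀ r x *ᵥ u = w) :
    sol θ g m₀ r x w = u := P.inj ((sol_spec P w).trans h.symm)

theorem sol_add (θ : ℝ) (g : Edge n → ℝ) (m₀ : Fin n → ℝ) (r : ℝ) (x a b : Fin n → ℝ) :
    sol θ g m₀ r x (a + b) = sol θ g m₀ r x a + sol θ g m₀ r x b := Matrix.mulVec_add _ _ _

theorem sol_sub (θ : ℝ) (g : Edge n → ℝ) (m₀ : Fin n → ℝ) (r : ℝ) (x a b : Fin n → ℝ) :
    sol θ g m₀ r x (a - b) = sol θ g m₀ r x a - sol θ g m₀ r x b := Matrix.mulVec_sub _ _ _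

theorem PosPoint.dpos (P : PosPoint θ γ r g m₀ x) (i : Fin n) : 0 < 1 - x i ^ 2 := by
  linarith [(sq_lt_one_iff_abs_lt_one _).2 (P.mem i)]

theorem PosPoint.abs_le (P : PosPoint θ γ r g m₀ x) (i : Fin n) : |x i| ≤ 1 := (P.mem i).le

theorem sol_bound (P : PosPoint θ γ r g m₀ x) (w : Fin n → ℝ) :
    γ * nrm (sol θ g m₀ r x w) ≤ nrm w := by
  set u := sol θ g m₀ r x w
  have h := P.hess u
  rw [← dot_hessCMat, sol_spec P, ← nrm_sq] at h
  have h2 := h.trans ((le_abs_self _).trans (abs_sum_mul_le u w))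
  rcases (nrm_nonneg u).eq_or_lt with h0 | h0
  · rw [← h0, mul_zero]; exact nrm_nonneg w
  · refine le_of_mul_le_mul_left ?_ h0
    calc nrm u * (γ * nrm u) = γ * nrm u ^ 2 := by ring
      _ ≤ _ := h2

/-- The constant of the scaled bounds. -/
noncomputable def solC (r γ : ℝ) : ℝ := 1 + lipC r / γ

theorem solC_one_le (hγ : 0 < γ) : 1 ≤ solC r γ :=
  le_add_of_nonneg_right (div_nonneg (lipC_pos r).le hγ.le)

/-- `F w` is controlled by `(1 - x²) w`. -/
theorem sol_bound_scaled (P : PosPoint θ γ r g m₀ x) (w : Fin n → ℝ) :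
    nrm (sol θ g m₀ r x w) ≤ solC r γ * nrm fun i => (1 - x i ^ 2) * w i := by
  set u := sol θ g m₀ r x w with hu
  set d : Fin n → ℝ := fun i => (1 - x i ^ 2) * w i with hd
  have hz : hessCMat θ g m₀ r x *ᵥ (u - d) = fun i => -nl1 θ g m₀ r x d i := by
    rw [Matrix.mulVec_sub, hu, sol_spec P]
    funext i
    rw [Pi.sub_apply, hessCMat_mulVec, hd, mul_div_cancel_left₀ _ (P.dpos i).ne']
    ring
  have hb := sol_bound P fun i => -nl1 θ g m₀ r x d i
  rw [sol_eq P hz] at hb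
  have hn1 : nrm (fun i => -nl1 θ g m₀ r x d i) ≤ lipC r * nrm d :=
    (nrm_mono fun i => (abs_neg _).le).trans (nl1_le P.pos P.θnonneg P.θle P.op P.abs_le P.centre d)
  have h1 : nrm u ≤ nrm (u - d) + nrm d :=
    le_trans (le_of_eq (congrArg nrm (funext fun i => by simp))) (nrm_add_le (u - d) d)
  have h2 : nrm (u - d) ≤ lipC r / γ * nrm d := by
    rw [div_mul_eq_mul_div, le_div_iff₀ P.γpos, mul_comm]
    exact hb.trans hn1
  rw [solC]
  linarith

/-- `F w / (1 - x²)` is controlled by `w`. -/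
theorem sol_bound_div (P : PosPoint θ γ r g m₀ x) (w : Fin n → ℝ) :
    nrm (fun i => sol θ g m₀ r x w i / (1 - x i ^ 2)) ≤ solC r γ * nrm w := by
  set u := sol θ g m₀ r x w with hu
  have e : (fun i => u i / (1 - x i ^ 2)) = fun i => w i - nl1 θ g m₀ r x u i := funext fun i => by
    have h := congrFun (sol_spec P w) i
    rw [hessCMat_mulVec] at h
    rw [← h, hu]; ring
  rw [e]
  refine (nrm_sub_le _ _).trans ?_
  have h1 := nl1_le (r := r) P.pos P.θnonneg P.θle P.op P.abs_le P.centre u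
  have h2 : lipC r * nrm u ≤ lipC r / γ * nrm w := by
    rw [div_mul_eq_mul_div, le_div_iff₀ P.γpos, mul_assoc, mul_comm (nrm u)]
    exact mul_le_mul_of_nonneg_left (sol_bound P w) (lipC_pos r).le
  rw [solC]
  linarith

end Vale.Agent.P150.Full.T.Cell
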